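import Vale.Agent.P100.Far.Defs

/-!
# P100: positivity of one polynomial of the certificate
-/

namespace Vale.Agent.P100.Far

open Wide (sideNum)
open Thin (pK pE)

/-- A coefficient of a positive expansion. -/
noncomputable def eA_pos_c0 (y : ℝ) : ℝ :=
  (3706293073103077 / 14400) + (58838945398417 / 400) * y + (133165658242363 / 3600) * y ^ 2 +
  (53480027877 / 10) * y ^ 3 + (145914775961 / 300) * y ^ 4 + (712531449 / 25) * y ^ 5 +
  (9459469 / 9) * y ^ 6 + (557584 / 25) * y ^ 7 + (46912 / 225) * y ^ 8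

theorem eA_pos_c0_pos {y : ℝ} (hy : 0 ≤ y) : 0 < eA_pos_c0 y := by
  unfold eA_pos_c0
  positivity

/-- A coefficient of a positive expansion. -/
noncomputable def eA_pos_c1 (y : ℝ) : ℝ :=
  (1020866136896901 / 3200) + (869803313049419 / 4800) * y + (108743913953647 / 2400) * y ^ 2 +
  (521403693809 / 80) * y ^ 3 + (118034712979 / 200) * y ^ 4 + (3446276811 / 100) * y ^ 5 +
  (12676907 / 10) * y ^ 6 + (2014517 / 75) * y ^ 7 + (18824 / 75) * y ^ 8

theorem eA_pos_c1_pos {y : ℝ} (hy : 0 ≤ y) : 0 < eA_pos_c1 y := by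
  unfold eA_pos_c1
  positivity

/-- A coefficient of a positive expansion. -/
noncomputable def eA_pos_c2 (y : ℝ) : ℝ :=
  (1815958108773367 / 11520) + (1419704414151 / 16) * y + (253433737215517 / 11520) * y ^ 2 +
  (1004939013333 / 320) * y ^ 3 + (54243942517 / 192) * y ^ 4 + (656481963 / 40) * y ^ 5 +
  (433072291 / 720) * y ^ 6 + (254373 / 20) * y ^ 7 + (4277 / 36) * y ^ 8

theorem eA_pos_c2_pos {y : ℝ} (hy : 0 ≤ y) : 0 < eA_pos_c2 y := by
  unfold eA_pos_c2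
  positivity

/-- A coefficient of a positive expansion. -/
noncomputable def eA_pos_c3 (y : ℝ) : ℝ :=
  (180769162038755 / 4608) + (27864202028139 / 1280) * y + (122671673749879 / 23040) * y ^ 2 +
  (480409094033 / 640) * y ^ 3 + (128264207363 / 1920) * y ^ 4 + (153894403 / 40) * y ^ 5 +
  (201813241 / 1440) * y ^ 6 + (118157 / 40) * y ^ 7 + (9931 / 360) * y ^ 8

theorem eA_pos_c3_pos {y : ℝ} (hy : 0 ≤ y) : 0 < eA_pos_c3 y := by
  unfold eA_pos_c3
  positivity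

/-- A coefficient of a positive expansion. -/
noncomputable def eA_pos_c4 (y : ℝ) : ℝ :=
  (4867392927419 / 960) + (1053881965633 / 384) * y + (628766114981 / 960) * y ^ 2 +
  (14434422819 / 160) * y ^ 3 + (629089067 / 80) * y ^ 4 + (17808853 / 40) * y ^ 5 +
  (961343 / 60) * y ^ 6 + (10067 / 30) * y ^ 7 + (47 / 15) * y ^ 8

theorem eA_pos_c4_pos {y : ℝ} (hy : 0 ≤ y) : 0 < eA_pos_c4 y := by
  unfold eA_pos_c4
  positivity

/-- A coefficient of a positive expansion. -/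
noncomputable def eA_pos_c5 (y : ℝ) : ℝ :=
  (1422608561617 / 4608) + (81295124933 / 512) * y + (82664284745 / 2304) * y ^ 2 +
  (598148349 / 128) * y ^ 3 + (74102047 / 192) * y ^ 4 + (666951 / 32) * y ^ 5 +
  (104243 / 144) * y ^ 6 + (119 / 8) * y ^ 7 + (5 / 36) * y ^ 8

theorem eA_pos_c5_pos {y : ℝ} (hy : 0 ≤ y) : 0 < eA_pos_c5 y := by
  unfold eA_pos_c5
  positivity

/-- A coefficient of a positive expansion. -/
noncomputable def eA_pos_c6 (y : ℝ) : ℝ :=
  (393832837 / 64) + (43520409 / 16) * y + (8024151 / 16) * y ^ 2 + (98739 / 2) * y ^ 3 +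
  (10947 / 4) * y ^ 4 + 81 * y ^ 5 + 1 * y ^ 6

theorem eA_pos_c6_pos {y : ℝ} (hy : 0 ≤ y) : 0 < eA_pos_c6 y := by
  unfold eA_pos_c6
  positivity

set_option maxHeartbeats 4000000 in
theorem eA_pos {x y : ℝ} (hx : 0 ≤ x) (hy : 0 ≤ y) :
    0 < eA (x + 6) (y + 27 / 2) := by
  have e : eA (x + 6) (y + 27 / 2) =
      eA_pos_c0 y +
      eA_pos_c1 y * x ^ 1 +
      eA_pos_c2 y * x ^ 2 +
      eA_pos_c3 y * x ^ 3 +
      eA_pos_c4 y * x ^ 4 +
      eA_pos_c5 y * x ^ 5 +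
      eA_pos_c6 y * x ^ 6 := by
    simp only [eA, eB, eR, eS, eV, eM, sideNum, pH, pK, pE, pC1, pC2, pC3, pC4, pL1, pL2, pM1,
      pM2, pm2, pT, pT0, pA, pB, pD, pW, pG, pG2, pGd,
      eA_pos_c0, eA_pos_c1, eA_pos_c2, eA_pos_c3, eA_pos_c4, eA_pos_c5, eA_pos_c6]
    ring
  rw [e]
  have k0 := eA_pos_c0_pos hy
  have k1 := mul_nonneg (eA_pos_c1_pos hy).le (pow_nonneg hx 1)
  have k2 := mul_nonneg (eA_pos_c2_pos hy).le (pow_nonneg hx 2)
  have k3 := mul_nonneg (eA_pos_c3_pos hy).le (pow_nonneg hx 3)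
  have k4 := mul_nonneg (eA_pos_c4_pos hy).le (pow_nonneg hx 4)
  have k5 := mul_nonneg (eA_pos_c5_pos hy).le (pow_nonneg hx 5)
  have k6 := mul_nonneg (eA_pos_c6_pos hy).le (pow_nonneg hx 6)
  linarith

end Vale.Agent.P100.Far
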