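import Vale.Agent.P100.Far.Defs

/-!
# P100: the weights are admissible for the shell estimate
-/

namespace Vale.Agent.P100.Far

/-- A coefficient of `pCond`. -/
noncomputable def cond_c0 (y : ℝ) : ℝ :=
  (20634171 / 5) + (8340316 / 5) * y + (1325016 / 5) * y ^ 2 + (104192 / 5) * y ^ 3 + 816 * y ^ 4 +
  (64 / 5) * y ^ 5

/-- A coefficient of `pCond`. -/
noncomputable def cond_c1 (y : ℝ) : ℝ :=
  (50537251 / 20) + (10312669 / 10) * y + (822402 / 5) * y ^ 2 + (64764 / 5) * y ^ 3 +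
  508 * y ^ 4 + 8 * y ^ 5

/-- A coefficient of `pCond`. -/
noncomputable def cond_c2 (y : ℝ) : ℝ :=
  (12567471 / 40) + (5522319 / 40) * y + (114448 / 5) * y ^ 2 + (9231 / 5) * y ^ 3 + 74 * y ^ 4 +
  (6 / 5) * y ^ 5

/-- A coefficient of `pCond`. -/
noncomputable def cond_c3 (y : ℝ) : ℝ :=
  (2188773 / 160) + (17087 / 5) * y + (7363 / 20) * y ^ 2 + (104 / 5) * y ^ 3 + (1 / 2) * y ^ 4

/-- A coefficient of `pCond`. -/
noncomputable def cond_c4 (y : ℝ) : ℝ :=
  (6103 / 20) + (1147 / 10) * y + (61 / 5) * y ^ 2 + (2 / 5) * y ^ 3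

/-- The discriminant of the top three coefficients of `pCond`. -/
noncomputable def cond_disc (y : ℝ) : ℝ :=
  (1005356004027 / 5120) + (87665418411 / 400) * y + (135778042881 / 1600) * y ^ 2 +
  (845491781 / 50) * y ^ 3 + (317422097 / 160) * y ^ 4 + (717007 / 5) * y ^ 5 +
  (631489 / 100) * y ^ 6 + (3904 / 25) * y ^ 7 + (167 / 100) * y ^ 8

theorem pCond_pos {x y : ℝ} (hx : 0 ≤ x) (hy : 0 ≤ y) : 0 < pCond (x + 6) (y + 27 / 2) := by
  have e : pCond (x + 6) (y + 27 / 2) = cond_c0 y + cond_c1 y * x +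
      x ^ 2 * (cond_c4 y * x ^ 2 - cond_c3 y * x + cond_c2 y) := by
    simp only [pCond, pA, pB, pD, pW, cond_c0, cond_c1, cond_c2, cond_c3, cond_c4]
    ring
  have ed : 4 * cond_c2 y * cond_c4 y - cond_c3 y ^ 2 = cond_disc y := by
    simp only [cond_c2, cond_c3, cond_c4, cond_disc]
    ring
  have h0 : 0 < cond_c0 y := by unfold cond_c0; positivity
  have h1 : 0 ≤ cond_c1 y := by unfold cond_c1; positivity
  have h4 : 0 < cond_c4 y := by unfold cond_c4; positivity
  have hd : 0 ≤ cond_disc y := by unfold cond_disc; positivity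
  have hq : 0 ≤ cond_c4 y * x ^ 2 - cond_c3 y * x + cond_c2 y := by
    refine nonneg_of_mul_nonneg_right ?_ (by positivity : 0 < 4 * cond_c4 y)
    rw [show 4 * cond_c4 y * (cond_c4 y * x ^ 2 - cond_c3 y * x + cond_c2 y) =
      (2 * cond_c4 y * x - cond_c3 y) ^ 2 + cond_disc y by rw [← ed]; ring]
    positivity
  rw [e]
  positivity

end Vale.Agent.P100.Far
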