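import Vale.Agent.P100.ThinDefs

/-!
# P100: the polynomials of the certificate for `p + 1 ≥ 27/2 (q + 1)`, `n ≥ 6`

Here the weight on `u` is close enough to `1` for the shell estimate of the weighted system.
-/

namespace Vale.Agent.P100.Far

/-- The common denominator `(1 + r²)² (n - 2)³`. -/
def pW (n r : ℝ) : ℝ := (1 + r ^ 2) ^ 2 * (n - 2) ^ 3

/-- `pW` times the weight exponent on `u`. -/
noncomputable def pA (n r : ℝ) : ℝ :=
  pW n r - 2 * r ^ 2 * (1 + r ^ 2) * (n - 2) ^ 2 +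
    (1 / 2 * r ^ 2 - 1 / 4 * r) * (1 + r ^ 2) * (n - 2) - 2 / 5 * r ^ 2 * (1 + r ^ 2)

/-- `(1+r²)² (n - 2)` times the exponent on `v` minus one. -/
noncomputable def pD (r : ℝ) : ℝ := 2 * r ^ 2 * (1 + r ^ 2 - 9 / 10 * r) - 2 * (1 + r ^ 2) ^ 2

/-- `pW` times the weight exponent on `v`. -/
noncomputable def pB (n r : ℝ) : ℝ := pW n r + pD r * (n - 2) ^ 2

/-- The tensor coefficient of `a ⊗ a`, cleared. -/
noncomputable def pL1 (n r : ℝ) : ℝ := -pW n r - 5 / 3 * (1 + r ^ 2) ^ 2 * (n - 2) ^ 2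

/-- The tensor coefficient of `b ⊗ b`, cleared. -/
noncomputable def pL2 (n r : ℝ) : ℝ := -pW n r + 3 / 4 * (1 + r ^ 2) ^ 2 * (n - 2) ^ 2

/-- The tensor coefficient of `a ⊗ b` next to `P`, cleared. -/
noncomputable def pM1 (n r : ℝ) : ℝ :=
  -((2 * r + 9 / 20) * (1 + r ^ 2) * (n - 2) ^ 2 +
    (1 / 2 * r ^ 2 + 1 / 4 * r) * (1 + r ^ 2) * (n - 2) +
    2 * r ^ 2 * (1 + r ^ 2) * (n - 2) ^ 2 + 2 / 5 * r ^ 2 * (1 + r ^ 2) -
    5 / 3 * (1 + r ^ 2) ^ 2 * (n - 2) ^ 2)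

/-- The first order part of the tensor coefficient next to `Q`. -/
noncomputable def pm2 (r : ℝ) : ℝ :=
  9 / 20 * r ^ 2 * (1 + r ^ 2) + 2 * r * (1 + r ^ 2 - 9 / 10 * r) - pD r +
    3 / 4 * (1 + r ^ 2) ^ 2

/-- The tensor coefficient of `a ⊗ b` next to `Q`, cleared. -/
noncomputable def pM2 (n r : ℝ) : ℝ := -pm2 r * (n - 2) ^ 2

/-- The sign of the multiplier of `|a|²|b|² - (a·b)²`. -/
noncomputable def pT0 (n r : ℝ) : ℝ :=
  (r ^ 2 * (1 + r ^ 2) + 9 / 20 * r * (1 + r ^ 2) + (1 + r ^ 2 - 9 / 10 * r)) * (n - 2) -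
    1 / 5 * (1 + r ^ 2) ^ 2

/-- The multiplier of `|a|²|b|² - (a·b)²`, cleared. -/
noncomputable def pT (n r : ℝ) : ℝ := pT0 n r * n * (n - 2) ^ 4 * (1 + r ^ 2) ^ 2

/-- The coefficient of `|a|² a`, cleared. -/
noncomputable def pC1 (n r : ℝ) : ℝ := pL1 n r - (pA n r - 2 * pW n r) / 2

/-- The coefficient of `|a|² b`, cleared. -/
noncomputable def pC2 (n r : ℝ) : ℝ := pM1 n r - pB n r / 2

/-- The coefficient of `|b|² a`, cleared. -/
noncomputable def pC3 (n r : ℝ) : ℝ := pM2 n r - pA n r / 2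

/-- The coefficient of `|b|² b`, cleared. -/
noncomputable def pC4 (n r : ℝ) : ℝ := pL2 n r - (pB n r - 2 * pW n r) / 2

/-- The denominator of the coefficient of `s b`. -/
def pGd (n r : ℝ) : ℝ := 2 * r ^ 2 * (1 + r ^ 2) ^ 2 * n * (n + 2)

/-- The first order part of the coefficient of `s b`. -/
noncomputable def pG2 (r : ℝ) : ℝ :=
  2 * r * ((5 / 3 * (1 + r ^ 2) ^ 2 - r ^ 2 * (1 + r ^ 2) + 2 * (1 + r ^ 2) ^ 2) * r ^ 2 +
      pm2 r - r ^ 2 * (1 + r ^ 2)) +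
    (r ^ 2 - 1) * (2 * (1 + r) * (1 + r ^ 2) ^ 2 + pD r - 2 * r ^ 3 * (1 + r ^ 2)) -
    4 * r ^ 2 * (1 + r) * (1 + r ^ 2) ^ 2

/-- The numerator of the coefficient of `s b`. -/
noncomputable def pG (n r : ℝ) : ℝ :=
  (r ^ 2 - 1) * r * (1 + r ^ 2) ^ 2 * n * (n + 2) - pG2 r * (n + 2) +
    2 / 3 * r ^ 2 * (1 + r ^ 2) ^ 2 * (5 * r - 19)

/-- The numerator of the coefficient of `t a`. -/
noncomputable def pH (n r : ℝ) : ℝ := 4 * r ^ 2 * (1 + r ^ 2) ^ 2 * (n + 2) - pG n r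

/-- The margin in `(1 - A) (p + 1) + (1 - B) (q + 1) ≤ (1 - w) g (4 + 7 g) / 2 / (1 + 2 g)`. -/
noncomputable def pCond (n r : ℝ) : ℝ :=
  r * (2 * (2 * (n - 2) + 4) - 1) * (n - 2) ^ 3 * (1 + r ^ 2) ^ 2 -
    (2 * (n - 2) + 4) * ((r * (pW n r - pA n r) + (pW n r - pB n r)) * (n - 2))

/-- An entry of the quartic block. -/
noncomputable def eA (n r : ℝ) : ℝ :=
  n * pC1 n r * (pA n r - 3 * pW n r) - (n - 1) * pL1 n r ^ 2

/-- An entry of the quartic block. -/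
noncomputable def eB (n r : ℝ) : ℝ :=
  n * pC4 n r * (pB n r - 3 * pW n r) - (n - 1) * pL2 n r ^ 2

/-- An entry of the quartic block. -/
noncomputable def eR (n r : ℝ) : ℝ :=
  (n * (pC1 n r * pB n r + pC2 n r * (pA n r - 2 * pW n r)) -
    2 * (n - 1) * pL1 n r * pM1 n r) / 2

/-- An entry of the quartic block. -/
noncomputable def eS (n r : ℝ) : ℝ :=
  (n * (pC3 n r * (pB n r - 2 * pW n r) + pC4 n r * pA n r) -
    2 * (n - 1) * pL2 n r * pM2 n r) / 2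

/-- An entry of the quartic block. -/
noncomputable def eV (n r : ℝ) : ℝ :=
  (n * (pC2 n r * (pB n r - pW n r) + pC3 n r * (pA n r - pW n r)) -
    n * (pM1 n r ^ 2 + pM2 n r ^ 2) / 2 - pT n r) / 2

/-- An entry of the quartic block. -/
noncomputable def eM (n r : ℝ) : ℝ :=
  pT n r - (n - 2) * (pM1 n r ^ 2 + pM2 n r ^ 2) / 2

end Vale.Agent.P100.Far
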