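import Vale.Agent.P100.Far.DetEntries

/-!
# P100: coefficients of the determinant of the quartic block
-/

namespace Vale.Agent.P100.Far

/-- A coefficient of the determinant. -/
def det0 (y : ℝ) : ℝ :=
    3015231046771329883525062399646720403021949228810240
    + 70065381453179944472074976355120230005302290364235776 * y
    + 114902889870637295284214994481491270553612639046467584 * y ^ 2
    + 92451705803613067410918594293242600367122900007780352 * y ^ 3
    + 47645088545095194915407061480808059962283571978174464 * y ^ 4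
    + 17583373484070098090396696747300291719055071770574848 * y ^ 5
    + 4937821128294641337352862418225712111688386137292800 * y ^ 6
    + 1095458824677147448876939694623875829085567308529664 * y ^ 7
    + 196813319784245276382991606017814637197614926266368 * y ^ 8
    + 29126851506785350723884470143516653410326054699008 * y ^ 9
    + 3592641545384539090160816840180594972866130214912 * y ^ 10
    + 372264907685697286962024016980873770998073131008 * y ^ 11
    + 32563888673588527635225803890535873006505295872 * y ^ 12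
    + 2410366678302301118325798150438197982759223296 * y ^ 13
    + 150968397035303876051991780251466403053305856 * y ^ 14
    + 7982040201468817742520733218106640324100096 * y ^ 15
    + 354503383537824425817088332119211088281600 * y ^ 16
    + 13120274661566315991434029746583253286912 * y ^ 17
    + 399890012071768326424429015018594369536 * y ^ 18
    + 9866495008633414263056045547542544384 * y ^ 19
    + 192184078380257951181274081199652864 * y ^ 20 + 2844982642824233807069750054879232 * y ^ 21
    + 30082065799660087933403437989888 * y ^ 22 + 202411277504176297498367754240 * y ^ 23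
    + 651358505364779050205184000 * y ^ 24

theorem det0_eq (y : ℝ) :
    (xA0 y * xM0 y * xB0 y)
    + 2 * (xR0 y * xS0 y * xV0 y)
    - (xA0 y * xS0 y * xS0 y)
    - (xB0 y * xR0 y * xR0 y)
    - (xV0 y * xV0 y * xM0 y) = det0 y := by
  simp only [det0, xA0, xB0, xM0, xR0, xS0, xV0]
  ring

theorem det0_nonneg {y : ℝ} (hy : 0 ≤ y) : 0 ≤ det0 y := by
  unfold det0
  positivity

/-- A coefficient of the determinant. -/
def det1 (y : ℝ) : ℝ :=
    254789646468732647645347452407168660999564595871481856
    + 762243451483698465014301398356420102528397833029550080 * y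
    + 912641082937473748338951343935317718220197168705699840 * y ^ 2
    + 638692746153087722358623941737125281038829496184078336 * y ^ 3
    + 303919148963076514714481253947468604654350814198890496 * y ^ 4
    + 106489806011919374740220381715729977089766080074743808 * y ^ 5
    + 28831146745393032503718018370601918142853072237363200 * y ^ 6
    + 6224526057091193360786213451222825301051314114920448 * y ^ 7
    + 1095008199296592137894255365474841419359175940505600 * y ^ 8
    + 159353091300280821529845373888120502162408884666368 * y ^ 9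
    + 19387627383377921872534416669739972240005465636864 * y ^ 10
    + 1986139053753894346080660815721449023915381751808 * y ^ 11
    + 172072967417837541044483944536882630191990439936 * y ^ 12
    + 12632425483501581999876387299932753571535126528 * y ^ 13
    + 785608288427026297306077983335945908818804736 * y ^ 14
    + 41281021687076987680190684326296819037372416 * y ^ 15
    + 1823499984928488130150620691685937990598656 * y ^ 16
    + 67167153744133085968074441479245220806656 * y ^ 17
    + 2038551207546379243352216642529559314432 * y ^ 18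
    + 50109077381956911376910814392038195200 * y ^ 19
    + 972796636899237694933778277372788736 * y ^ 20
    + 14357947249713183136600933326127104 * y ^ 21 + 151414489157188325547955709804544 * y ^ 22
    + 1016402132158079107904519012352 * y ^ 23 + 3263875293053805951713280000 * y ^ 24

theorem det1_eq (y : ℝ) :
    (xA0 y * xM0 y * xB1 y +
      xA0 y * xM1 y * xB0 y +
      xA1 y * xM0 y * xB0 y)
    + 2 * (xR0 y * xS0 y * xV1 y +
      xR0 y * xS1 y * xV0 y +
      xR1 y * xS0 y * xV0 y)
    - (xA0 y * xS0 y * xS1 y +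
      xA0 y * xS1 y * xS0 y +
      xA1 y * xS0 y * xS0 y)
    - (xB0 y * xR0 y * xR1 y +
      xB0 y * xR1 y * xR0 y +
      xB1 y * xR0 y * xR0 y)
    - (xV0 y * xV0 y * xM1 y +
      xV0 y * xV1 y * xM0 y +
      xV1 y * xV0 y * xM0 y) = det1 y := by
  simp only [det1, xA0, xA1, xB0, xB1, xM0, xM1, xR0, xR1, xS0,
    xS1, xV0, xV1]
  ring

theorem det1_nonneg {y : ℝ} (hy : 0 ≤ y) : 0 ≤ det1 y := by
  unfold det1
  positivity

/-- A coefficient of the determinant. -/
def det2 (y : ℝ) : ℝ :=
    1091114775239953855145726071783306238549716766180311040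
    + 2615729710273132178323413639473168106270411586893250560 * y
    + 2802841497840635618682259569202007143482822241826242560 * y ^ 2
    + 1834024773502266303312708109616991620784217665739161600 * y ^ 3
    + 834118919775812614243306871470659848769787637911781376 * y ^ 4
    + 282892558477318740251783171739851314859742988005801984 * y ^ 5
    + 74726051272669402237622896797560056265549651243958272 * y ^ 6
    + 15824554208252122261297562307560165089388489481388032 * y ^ 7
    + 2740895212580366483174348403436501707257196526436352 * y ^ 8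
    + 393806948976931116837461292488876011477134565441536 * y ^ 9
    + 47402471338524883603589050097645209257621841772544 * y ^ 10
    + 4812180495548378676071146793321413610898695651328 * y ^ 11
    + 413673564843136504705867886850106478821795430400 * y ^ 12
    + 30164390785787057928679953181061724796574760960 * y ^ 13
    + 1864858247499603853830564441023221216994918400 * y ^ 14
    + 97483168134776272466897623205177403893612544 * y ^ 15
    + 4286310934457152609722177680774308319723520 * y ^ 16
    + 157236981609054654092816379106609676156928 * y ^ 17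
    + 4754772740869589968997884817694531780608 * y ^ 18
    + 116493219392618942705462665826443198464 * y ^ 19
    + 2254902484487020423703096916493467648 * y ^ 20
    + 33193116961260420515194334538104832 * y ^ 21 + 349210705748126411944904173289472 * y ^ 22
    + 2339121267923706072383304499200 * y ^ 23 + 7496877132281545825389117440 * y ^ 24

theorem det2_eq (y : ℝ) :
    (xA0 y * xM0 y * xB2 y +
      xA0 y * xM1 y * xB1 y +
      xA0 y * xM2 y * xB0 y +
      xA1 y * xM0 y * xB1 y +
      xA1 y * xM1 y * xB0 y +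
      xA2 y * xM0 y * xB0 y)
    + 2 * (xR0 y * xS0 y * xV2 y +
      xR0 y * xS1 y * xV1 y +
      xR0 y * xS2 y * xV0 y +
      xR1 y * xS0 y * xV1 y +
      xR1 y * xS1 y * xV0 y +
      xR2 y * xS0 y * xV0 y)
    - (xA0 y * xS0 y * xS2 y +
      xA0 y * xS1 y * xS1 y +
      xA0 y * xS2 y * xS0 y +
      xA1 y * xS0 y * xS1 y +
      xA1 y * xS1 y * xS0 y +
      xA2 y * xS0 y * xS0 y)
    - (xB0 y * xR0 y * xR2 y +
      xB0 y * xR1 y * xR1 y +
      xB0 y * xR2 y * xR0 y +
      xB1 y * xR0 y * xR1 y +
      xB1 y * xR1 y * xR0 y +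
      xB2 y * xR0 y * xR0 y)
    - (xV0 y * xV0 y * xM2 y +
      xV0 y * xV1 y * xM1 y +
      xV0 y * xV2 y * xM0 y +
      xV1 y * xV0 y * xM1 y +
      xV1 y * xV1 y * xM0 y +
      xV2 y * xV0 y * xM0 y) = det2 y := by
  simp only [det2, xA0, xA1, xA2, xB0, xB1, xB2, xM0, xM1, xM2,
    xR0, xR1, xR2, xS0, xS1, xS2, xV0, xV1, xV2]
  ring

theorem det2_nonneg {y : ℝ} (hy : 0 ≤ y) : 0 ≤ det2 y := by
  unfold det2
  positivity

/-- A coefficient of the determinant. -/
def det3 (y : ℝ) : ℝ :=
    2185454626720897410200902059838428571817967240713043968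
    + 4789207408839641920891822804061032127365544029676470272 * y
    + 4847317846844872639338075165858866287938541729641431040 * y ^ 2
    + 3048840696302751526350880754885262378553205501932339200 * y ^ 3
    + 1346872639405908457617960916815050985062087267562160128 * y ^ 4
    + 446711993684878480317001618476063300962025073186701312 * y ^ 5
    + 115930873728909884979914240558292197219909886021730304 * y ^ 6
    + 24200341264357741520979373235253680247041291823611904 * y ^ 7
    + 4142046222409862120801255318778998276414309211832320 * y ^ 8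
    + 589189258894946318613019247454698910000671121997824 * y ^ 9
    + 70316888098232745328445997664476940533245493116928 * y ^ 10
    + 7085932119248452774263863392679682757410787688448 * y ^ 11
    + 605233075666105544181820271888816296033725186048 * y ^ 12
    + 43884381462955532382862270695513414642098503680 * y ^ 13
    + 2699581341684345002653021984727341363057655808 * y ^ 14
    + 140493428470993913666533901629134593473904640 * y ^ 15
    + 6153063799319644146474750874524353852080128 * y ^ 16
    + 224916426982278306107532034867153141235712 * y ^ 17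
    + 6779682131357391978611077191146418470912 * y ^ 18
    + 165626082954771355001633612643780526080 * y ^ 19
    + 3197599442908092785760577497738510336 * y ^ 20
    + 46959024115691056194998475857854464 * y ^ 21 + 492979332091747261377439208570880 * y ^ 22
    + 3295717621933702036558914256896 * y ^ 23 + 10544151225378272735047712768 * y ^ 24

theorem det3_eq (y : ℝ) :
    (xA0 y * xM0 y * xB3 y +
      xA0 y * xM1 y * xB2 y +
      xA0 y * xM2 y * xB1 y +
      xA0 y * xM3 y * xB0 y +
      xA1 y * xM0 y * xB2 y +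
      xA1 y * xM1 y * xB1 y +
      xA1 y * xM2 y * xB0 y +
      xA2 y * xM0 y * xB1 y +
      xA2 y * xM1 y * xB0 y +
      xA3 y * xM0 y * xB0 y)
    + 2 * (xR0 y * xS0 y * xV3 y +
      xR0 y * xS1 y * xV2 y +
      xR0 y * xS2 y * xV1 y +
      xR0 y * xS3 y * xV0 y +
      xR1 y * xS0 y * xV2 y +
      xR1 y * xS1 y * xV1 y +
      xR1 y * xS2 y * xV0 y +
      xR2 y * xS0 y * xV1 y +
      xR2 y * xS1 y * xV0 y +
      xR3 y * xS0 y * xV0 y)
    - (xA0 y * xS0 y * xS3 y +
      xA0 y * xS1 y * xS2 y +
      xA0 y * xS2 y * xS1 y +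
      xA0 y * xS3 y * xS0 y +
      xA1 y * xS0 y * xS2 y +
      xA1 y * xS1 y * xS1 y +
      xA1 y * xS2 y * xS0 y +
      xA2 y * xS0 y * xS1 y +
      xA2 y * xS1 y * xS0 y +
      xA3 y * xS0 y * xS0 y)
    - (xB0 y * xR0 y * xR3 y +
      xB0 y * xR1 y * xR2 y +
      xB0 y * xR2 y * xR1 y +
      xB0 y * xR3 y * xR0 y +
      xB1 y * xR0 y * xR2 y +
      xB1 y * xR1 y * xR1 y +
      xB1 y * xR2 y * xR0 y +
      xB2 y * xR0 y * xR1 y +
      xB2 y * xR1 y * xR0 y +
      xB3 y * xR0 y * xR0 y)
    - (xV0 y * xV0 y * xM3 y +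
      xV0 y * xV1 y * xM2 y +
      xV0 y * xV2 y * xM1 y +
      xV0 y * xV3 y * xM0 y +
      xV1 y * xV0 y * xM2 y +
      xV1 y * xV1 y * xM1 y +
      xV1 y * xV2 y * xM0 y +
      xV2 y * xV0 y * xM1 y +
      xV2 y * xV1 y * xM0 y +
      xV3 y * xV0 y * xM0 y) = det3 y := by
  simp only [det3, xA0, xA1, xA2, xA3, xB0, xB1, xB2, xB3, xM0,
    xM1, xM2, xM3, xR0, xR1, xR2, xR3, xS0, xS1,
    xS2, xS3, xV0, xV1, xV2, xV3]
  ring

theorem det3_nonneg {y : ℝ} (hy : 0 ≤ y) : 0 ≤ det3 y := by
  unfold det3
  positivity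

/-- A coefficient of the determinant. -/
def det4 (y : ℝ) : ℝ :=
    2691551245608894909199701692990407727952583320117436416
    + 5617387305335288058444182887930337292959181666196783104 * y
    + 5491539533327268679649527243771229312630283512459526144 * y ^ 2
    + 3365373531402167282503827582718548474462849820173336576 * y ^ 3
    + 1456935154630905240721459871695762857987461924378148864 * y ^ 4
    + 475453529646804566383113995889718342555416762070597632 * y ^ 5
    + 121764042485629783820187492248702208136306261984149504 * y ^ 6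
    + 25138299829437877541659434346215053000534684059828224 * y ^ 7
    + 4262452930606603681505524420657181337800047243296768 * y ^ 8
    + 601463591752099135176347050884736951108327037730816 * y ^ 9
    + 71283557149174018018607499085589245307323705982976 * y ^ 10
    + 7139727557696767444559067120471598288789529690112 * y ^ 11
    + 606563927995616860363795850891952247255118905344 * y ^ 12
    + 43772030746361659389206346217332036770432286720 * y ^ 13
    + 2681262447200794683160319750048894935866802176 * y ^ 14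
    + 139010125196171761717273598519869853826809856 * y ^ 15
    + 6067289358845675050069114838869894766788608 * y ^ 16
    + 221096275754465520368059878188043686903808 * y ^ 17
    + 6645888948726564209153758150610223366144 * y ^ 18
    + 161945121377627255699066757703004061696 * y ^ 19
    + 3119307437108358561128055277350813696 * y ^ 20
    + 45712749678316336833100588794249216 * y ^ 21 + 478973472381531192018055012024320 * y ^ 22
    + 3196464658105175794789285625856 * y ^ 23 + 10210213923779322099819085824 * y ^ 24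

theorem det4_eq (y : ℝ) :
    (xA0 y * xM0 y * xB4 y +
      xA0 y * xM1 y * xB3 y +
      xA0 y * xM2 y * xB2 y +
      xA0 y * xM3 y * xB1 y +
      xA0 y * xM4 y * xB0 y +
      xA1 y * xM0 y * xB3 y +
      xA1 y * xM1 y * xB2 y +
      xA1 y * xM2 y * xB1 y +
      xA1 y * xM3 y * xB0 y +
      xA2 y * xM0 y * xB2 y +
      xA2 y * xM1 y * xB1 y +
      xA2 y * xM2 y * xB0 y +
      xA3 y * xM0 y * xB1 y +
      xA3 y * xM1 y * xB0 y +
      xA4 y * xM0 y * xB0 y)
    + 2 * (xR0 y * xS0 y * xV4 y +
      xR0 y * xS1 y * xV3 y +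
      xR0 y * xS2 y * xV2 y +
      xR0 y * xS3 y * xV1 y +
      xR0 y * xS4 y * xV0 y +
      xR1 y * xS0 y * xV3 y +
      xR1 y * xS1 y * xV2 y +
      xR1 y * xS2 y * xV1 y +
      xR1 y * xS3 y * xV0 y +
      xR2 y * xS0 y * xV2 y +
      xR2 y * xS1 y * xV1 y +
      xR2 y * xS2 y * xV0 y +
      xR3 y * xS0 y * xV1 y +
      xR3 y * xS1 y * xV0 y +
      xR4 y * xS0 y * xV0 y)
    - (xA0 y * xS0 y * xS4 y +
      xA0 y * xS1 y * xS3 y +
      xA0 y * xS2 y * xS2 y +
      xA0 y * xS3 y * xS1 y +
      xA0 y * xS4 y * xS0 y +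
      xA1 y * xS0 y * xS3 y +
      xA1 y * xS1 y * xS2 y +
      xA1 y * xS2 y * xS1 y +
      xA1 y * xS3 y * xS0 y +
      xA2 y * xS0 y * xS2 y +
      xA2 y * xS1 y * xS1 y +
      xA2 y * xS2 y * xS0 y +
      xA3 y * xS0 y * xS1 y +
      xA3 y * xS1 y * xS0 y +
      xA4 y * xS0 y * xS0 y)
    - (xB0 y * xR0 y * xR4 y +
      xB0 y * xR1 y * xR3 y +
      xB0 y * xR2 y * xR2 y +
      xB0 y * xR3 y * xR1 y +
      xB0 y * xR4 y * xR0 y +
      xB1 y * xR0 y * xR3 y +
      xB1 y * xR1 y * xR2 y +
      xB1 y * xR2 y * xR1 y +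
      xB1 y * xR3 y * xR0 y +
      xB2 y * xR0 y * xR2 y +
      xB2 y * xR1 y * xR1 y +
      xB2 y * xR2 y * xR0 y +
      xB3 y * xR0 y * xR1 y +
      xB3 y * xR1 y * xR0 y +
      xB4 y * xR0 y * xR0 y)
    - (xV0 y * xV0 y * xM4 y +
      xV0 y * xV1 y * xM3 y +
      xV0 y * xV2 y * xM2 y +
      xV0 y * xV3 y * xM1 y +
      xV0 y * xV4 y * xM0 y +
      xV1 y * xV0 y * xM3 y +
      xV1 y * xV1 y * xM2 y +
      xV1 y * xV2 y * xM1 y +
      xV1 y * xV3 y * xM0 y +
      xV2 y * xV0 y * xM2 y +
      xV2 y * xV1 y * xM1 y +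
      xV2 y * xV2 y * xM0 y +
      xV3 y * xV0 y * xM1 y +
      xV3 y * xV1 y * xM0 y +
      xV4 y * xV0 y * xM0 y) = det4 y := by
  simp only [det4, xA0, xA1, xA2, xA3, xA4, xB0, xB1, xB2, xB3,
    xB4, xM0, xM1, xM2, xM3, xM4, xR0, xR1, xR2,
    xR3, xR4, xS0, xS1, xS2, xS3, xS4, xV0, xV1,
    xV2, xV3, xV4]
  ring

theorem det4_nonneg {y : ℝ} (hy : 0 ≤ y) : 0 ≤ det4 y := by
  unfold det4
  positivity

/-- A coefficient of the determinant. -/
def det5 (y : ℝ) : ℝ :=
    2281761718634721519585076862488979100516010598849755136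
    + 4618466330425977157817037174248613081227926514750509056 * y
    + 4410919011638133377253634541728152552556314128183451648 * y ^ 2
    + 2653949925548168428282708422919788777531753397741043712 * y ^ 3
    + 1132016279134507641006244382917358988788106277715730432 * y ^ 4
    + 364921150463153731296682644891487280972190573162037248 * y ^ 5
    + 92500091929745442119287130469747938280934500699373568 * y ^ 6
    + 18930176551159760856305309608381391102732015684026368 * y ^ 7
    + 3185668101749929738837074378817218888299563633606656 * y ^ 8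
    + 446578402091254570884132915079753041215073967669248 * y ^ 9
    + 52622805728706794251177921675541323751844338466816 * y ^ 10
    + 5243877546884406946948481106998572134155264458752 * y ^ 11
    + 443483778506903625520659589059936852744672903168 * y ^ 12
    + 31873928684368466886677137949146231937553137664 * y ^ 13
    + 1945333674559137551255456450509256714801381376 * y ^ 14
    + 100524371284544969399069659537863541109293056 * y ^ 15
    + 4374460099268779661368890319887988514881536 * y ^ 16
    + 158977041156777309953296650542289109647360 * y ^ 17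
    + 4766878734272238267275622374080753172480 * y ^ 18
    + 115896489792683159704618494695766491136 * y ^ 19
    + 2227745627793403750692122891523194880 * y ^ 20
    + 32585551316759909115055043166339072 * y ^ 21 + 340837720964134497682093718372352 * y ^ 22
    + 2270996897339667149522353520640 * y ^ 23 + 7243501089782139073687715840 * y ^ 24

theorem det5_eq (y : ℝ) :
    (xA0 y * xM0 y * xB5 y +
      xA0 y * xM1 y * xB4 y +
      xA0 y * xM2 y * xB3 y +
      xA0 y * xM3 y * xB2 y +
      xA0 y * xM4 y * xB1 y +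
      xA0 y * xM5 y * xB0 y +
      xA1 y * xM0 y * xB4 y +
      xA1 y * xM1 y * xB3 y +
      xA1 y * xM2 y * xB2 y +
      xA1 y * xM3 y * xB1 y +
      xA1 y * xM4 y * xB0 y +
      xA2 y * xM0 y * xB3 y +
      xA2 y * xM1 y * xB2 y +
      xA2 y * xM2 y * xB1 y +
      xA2 y * xM3 y * xB0 y +
      xA3 y * xM0 y * xB2 y +
      xA3 y * xM1 y * xB1 y +
      xA3 y * xM2 y * xB0 y +
      xA4 y * xM0 y * xB1 y +
      xA4 y * xM1 y * xB0 y +
      xA5 y * xM0 y * xB0 y)
    + 2 * (xR0 y * xS0 y * xV5 y +
      xR0 y * xS1 y * xV4 y +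
      xR0 y * xS2 y * xV3 y +
      xR0 y * xS3 y * xV2 y +
      xR0 y * xS4 y * xV1 y +
      xR0 y * xS5 y * xV0 y +
      xR1 y * xS0 y * xV4 y +
      xR1 y * xS1 y * xV3 y +
      xR1 y * xS2 y * xV2 y +
      xR1 y * xS3 y * xV1 y +
      xR1 y * xS4 y * xV0 y +
      xR2 y * xS0 y * xV3 y +
      xR2 y * xS1 y * xV2 y +
      xR2 y * xS2 y * xV1 y +
      xR2 y * xS3 y * xV0 y +
      xR3 y * xS0 y * xV2 y +
      xR3 y * xS1 y * xV1 y +
      xR3 y * xS2 y * xV0 y +
      xR4 y * xS0 y * xV1 y +
      xR4 y * xS1 y * xV0 y +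
      xR5 y * xS0 y * xV0 y)
    - (xA0 y * xS0 y * xS5 y +
      xA0 y * xS1 y * xS4 y +
      xA0 y * xS2 y * xS3 y +
      xA0 y * xS3 y * xS2 y +
      xA0 y * xS4 y * xS1 y +
      xA0 y * xS5 y * xS0 y +
      xA1 y * xS0 y * xS4 y +
      xA1 y * xS1 y * xS3 y +
      xA1 y * xS2 y * xS2 y +
      xA1 y * xS3 y * xS1 y +
      xA1 y * xS4 y * xS0 y +
      xA2 y * xS0 y * xS3 y +
      xA2 y * xS1 y * xS2 y +
      xA2 y * xS2 y * xS1 y +
      xA2 y * xS3 y * xS0 y +
      xA3 y * xS0 y * xS2 y +
      xA3 y * xS1 y * xS1 y +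
      xA3 y * xS2 y * xS0 y +
      xA4 y * xS0 y * xS1 y +
      xA4 y * xS1 y * xS0 y +
      xA5 y * xS0 y * xS0 y)
    - (xB0 y * xR0 y * xR5 y +
      xB0 y * xR1 y * xR4 y +
      xB0 y * xR2 y * xR3 y +
      xB0 y * xR3 y * xR2 y +
      xB0 y * xR4 y * xR1 y +
      xB0 y * xR5 y * xR0 y +
      xB1 y * xR0 y * xR4 y +
      xB1 y * xR1 y * xR3 y +
      xB1 y * xR2 y * xR2 y +
      xB1 y * xR3 y * xR1 y +
      xB1 y * xR4 y * xR0 y +
      xB2 y * xR0 y * xR3 y +
      xB2 y * xR1 y * xR2 y +
      xB2 y * xR2 y * xR1 y +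
      xB2 y * xR3 y * xR0 y +
      xB3 y * xR0 y * xR2 y +
      xB3 y * xR1 y * xR1 y +
      xB3 y * xR2 y * xR0 y +
      xB4 y * xR0 y * xR1 y +
      xB4 y * xR1 y * xR0 y +
      xB5 y * xR0 y * xR0 y)
    - (xV0 y * xV0 y * xM5 y +
      xV0 y * xV1 y * xM4 y +
      xV0 y * xV2 y * xM3 y +
      xV0 y * xV3 y * xM2 y +
      xV0 y * xV4 y * xM1 y +
      xV0 y * xV5 y * xM0 y +
      xV1 y * xV0 y * xM4 y +
      xV1 y * xV1 y * xM3 y +
      xV1 y * xV2 y * xM2 y +
      xV1 y * xV3 y * xM1 y +
      xV1 y * xV4 y * xM0 y +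
      xV2 y * xV0 y * xM3 y +
      xV2 y * xV1 y * xM2 y +
      xV2 y * xV2 y * xM1 y +
      xV2 y * xV3 y * xM0 y +
      xV3 y * xV0 y * xM2 y +
      xV3 y * xV1 y * xM1 y +
      xV3 y * xV2 y * xM0 y +
      xV4 y * xV0 y * xM1 y +
      xV4 y * xV1 y * xM0 y +
      xV5 y * xV0 y * xM0 y) = det5 y := by
  simp only [det5, xA0, xA1, xA2, xA3, xA4, xA5, xB0, xB1, xB2,
    xB3, xB4, xB5, xM0, xM1, xM2, xM3, xM4, xM5,
    xR0, xR1, xR2, xR3, xR4, xR5, xS0, xS1, xS2,
    xS3, xS4, xS5, xV0, xV1, xV2, xV3, xV4, xV5]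
  ring

theorem det5_nonneg {y : ℝ} (hy : 0 ≤ y) : 0 ≤ det5 y := by
  unfold det5
  positivity

/-- A coefficient of the determinant. -/
def det6 (y : ℝ) : ℝ :=
    1413609876626706244248348250135066797185057726729750528
    + 2801835451417292559429312017382135755301390313720276992 * y
    + 2631583929525223854842061047676662330138759308430180352 * y ^ 2
    + 1561936436816788559000043692601845449819445796321570816 * y ^ 3
    + 658724711477563285935003649744783477724845316393398272 * y ^ 4
    + 210327254351631593505743493300868723286872657221599232 * y ^ 5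
    + 52878982417885927110335444497793788974469138416852992 * y ^ 6
    + 10745304465830752003721626765489210593266893940490240 * y ^ 7
    + 1797118211227931443896997685711360603649732212981760 * y ^ 8
    + 250556957925644758574984598762818762600411556741120 * y ^ 9
    + 29382112858299579277316840901275313437785814728704 * y ^ 10
    + 2915330652195826598225045434182290199170808545280 * y ^ 11
    + 245602073236064173153693791210297662827992711168 * y ^ 12
    + 17590363848422530135414860090538880771605659648 * y ^ 13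
    + 1070193432309845091192331680312295990587555840 * y ^ 14
    + 55143513883607069144973397804806196892270592 * y ^ 15
    + 2393389228868503930282160635419706181812224 * y ^ 16
    + 86773551486649403857749194752602981531648 * y ^ 17
    + 2596203791437769372879269603393673363456 * y ^ 18
    + 62994874376524084599474699332160061440 * y ^ 19
    + 1208652772576484386253048264905457664 * y ^ 20
    + 17649244118727887177992217051529216 * y ^ 21 + 184319817436371754089283376381952 * y ^ 22
    + 1226358554487844769219349577728 * y ^ 23 + 3906382638233670825159950336 * y ^ 24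

theorem det6_eq (y : ℝ) :
    (xA0 y * xM0 y * xB6 y +
      xA0 y * xM1 y * xB5 y +
      xA0 y * xM2 y * xB4 y +
      xA0 y * xM3 y * xB3 y +
      xA0 y * xM4 y * xB2 y +
      xA0 y * xM5 y * xB1 y +
      xA0 y * xM6 y * xB0 y +
      xA1 y * xM0 y * xB5 y +
      xA1 y * xM1 y * xB4 y +
      xA1 y * xM2 y * xB3 y +
      xA1 y * xM3 y * xB2 y +
      xA1 y * xM4 y * xB1 y +
      xA1 y * xM5 y * xB0 y +
      xA2 y * xM0 y * xB4 y +
      xA2 y * xM1 y * xB3 y +
      xA2 y * xM2 y * xB2 y +
      xA2 y * xM3 y * xB1 y +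
      xA2 y * xM4 y * xB0 y +
      xA3 y * xM0 y * xB3 y +
      xA3 y * xM1 y * xB2 y +
      xA3 y * xM2 y * xB1 y +
      xA3 y * xM3 y * xB0 y +
      xA4 y * xM0 y * xB2 y +
      xA4 y * xM1 y * xB1 y +
      xA4 y * xM2 y * xB0 y +
      xA5 y * xM0 y * xB1 y +
      xA5 y * xM1 y * xB0 y +
      xA6 y * xM0 y * xB0 y)
    + 2 * (xR0 y * xS0 y * xV6 y +
      xR0 y * xS1 y * xV5 y +
      xR0 y * xS2 y * xV4 y +
      xR0 y * xS3 y * xV3 y +
      xR0 y * xS4 y * xV2 y +
      xR0 y * xS5 y * xV1 y +
      xR0 y * xS6 y * xV0 y +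
      xR1 y * xS0 y * xV5 y +
      xR1 y * xS1 y * xV4 y +
      xR1 y * xS2 y * xV3 y +
      xR1 y * xS3 y * xV2 y +
      xR1 y * xS4 y * xV1 y +
      xR1 y * xS5 y * xV0 y +
      xR2 y * xS0 y * xV4 y +
      xR2 y * xS1 y * xV3 y +
      xR2 y * xS2 y * xV2 y +
      xR2 y * xS3 y * xV1 y +
      xR2 y * xS4 y * xV0 y +
      xR3 y * xS0 y * xV3 y +
      xR3 y * xS1 y * xV2 y +
      xR3 y * xS2 y * xV1 y +
      xR3 y * xS3 y * xV0 y +
      xR4 y * xS0 y * xV2 y +
      xR4 y * xS1 y * xV1 y +
      xR4 y * xS2 y * xV0 y +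
      xR5 y * xS0 y * xV1 y +
      xR5 y * xS1 y * xV0 y +
      xR6 y * xS0 y * xV0 y)
    - (xA0 y * xS0 y * xS6 y +
      xA0 y * xS1 y * xS5 y +
      xA0 y * xS2 y * xS4 y +
      xA0 y * xS3 y * xS3 y +
      xA0 y * xS4 y * xS2 y +
      xA0 y * xS5 y * xS1 y +
      xA0 y * xS6 y * xS0 y +
      xA1 y * xS0 y * xS5 y +
      xA1 y * xS1 y * xS4 y +
      xA1 y * xS2 y * xS3 y +
      xA1 y * xS3 y * xS2 y +
      xA1 y * xS4 y * xS1 y +
      xA1 y * xS5 y * xS0 y +
      xA2 y * xS0 y * xS4 y +
      xA2 y * xS1 y * xS3 y +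
      xA2 y * xS2 y * xS2 y +
      xA2 y * xS3 y * xS1 y +
      xA2 y * xS4 y * xS0 y +
      xA3 y * xS0 y * xS3 y +
      xA3 y * xS1 y * xS2 y +
      xA3 y * xS2 y * xS1 y +
      xA3 y * xS3 y * xS0 y +
      xA4 y * xS0 y * xS2 y +
      xA4 y * xS1 y * xS1 y +
      xA4 y * xS2 y * xS0 y +
      xA5 y * xS0 y * xS1 y +
      xA5 y * xS1 y * xS0 y +
      xA6 y * xS0 y * xS0 y)
    - (xB0 y * xR0 y * xR6 y +
      xB0 y * xR1 y * xR5 y +
      xB0 y * xR2 y * xR4 y +
      xB0 y * xR3 y * xR3 y +
      xB0 y * xR4 y * xR2 y +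
      xB0 y * xR5 y * xR1 y +
      xB0 y * xR6 y * xR0 y +
      xB1 y * xR0 y * xR5 y +
      xB1 y * xR1 y * xR4 y +
      xB1 y * xR2 y * xR3 y +
      xB1 y * xR3 y * xR2 y +
      xB1 y * xR4 y * xR1 y +
      xB1 y * xR5 y * xR0 y +
      xB2 y * xR0 y * xR4 y +
      xB2 y * xR1 y * xR3 y +
      xB2 y * xR2 y * xR2 y +
      xB2 y * xR3 y * xR1 y +
      xB2 y * xR4 y * xR0 y +
      xB3 y * xR0 y * xR3 y +
      xB3 y * xR1 y * xR2 y +
      xB3 y * xR2 y * xR1 y +
      xB3 y * xR3 y * xR0 y +
      xB4 y * xR0 y * xR2 y +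
      xB4 y * xR1 y * xR1 y +
      xB4 y * xR2 y * xR0 y +
      xB5 y * xR0 y * xR1 y +
      xB5 y * xR1 y * xR0 y +
      xB6 y * xR0 y * xR0 y)
    - (xV0 y * xV0 y * xM6 y +
      xV0 y * xV1 y * xM5 y +
      xV0 y * xV2 y * xM4 y +
      xV0 y * xV3 y * xM3 y +
      xV0 y * xV4 y * xM2 y +
      xV0 y * xV5 y * xM1 y +
      xV0 y * xV6 y * xM0 y +
      xV1 y * xV0 y * xM5 y +
      xV1 y * xV1 y * xM4 y +
      xV1 y * xV2 y * xM3 y +
      xV1 y * xV3 y * xM2 y +
      xV1 y * xV4 y * xM1 y +
      xV1 y * xV5 y * xM0 y +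
      xV2 y * xV0 y * xM4 y +
      xV2 y * xV1 y * xM3 y +
      xV2 y * xV2 y * xM2 y +
      xV2 y * xV3 y * xM1 y +
      xV2 y * xV4 y * xM0 y +
      xV3 y * xV0 y * xM3 y +
      xV3 y * xV1 y * xM2 y +
      xV3 y * xV2 y * xM1 y +
      xV3 y * xV3 y * xM0 y +
      xV4 y * xV0 y * xM2 y +
      xV4 y * xV1 y * xM1 y +
      xV4 y * xV2 y * xM0 y +
      xV5 y * xV0 y * xM1 y +
      xV5 y * xV1 y * xM0 y +
      xV6 y * xV0 y * xM0 y) = det6 y := by
  simp only [det6, xA0, xA1, xA2, xA3, xA4, xA5, xA6, xB0, xB1,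
    xB2, xB3, xB4, xB5, xB6, xM0, xM1, xM2, xM3,
    xM4, xM5, xM6, xR0, xR1, xR2, xR3, xR4, xR5,
    xR6, xS0, xS1, xS2, xS3, xS4, xS5, xS6, xV0,
    xV1, xV2, xV3, xV4, xV5, xV6]
  ring

theorem det6_nonneg {y : ℝ} (hy : 0 ≤ y) : 0 ≤ det6 y := by
  unfold det6
  positivity

end Vale.Agent.P100.Far
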