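import Vale.Agent.P100.Far.DetEntries

/-!
# P100: coefficients of the determinant of the quartic block
-/

namespace Vale.Agent.P100.Far

/-- A coefficient of the determinant. -/
def det7 (y : ℝ) : ℝ :=
    662828328634254461900250945105545741185805376204480000
    + 1293881486133940771243781865620254884052543196449425408 * y
    + 1200130056697833557243907812647731258244690033995084288 * y ^ 2
    + 704891078777022268111610055824789689623144229589289984 * y ^ 3
    + 294643480418143941045837974602776191939102747422648320 * y ^ 4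
    + 93360856925446096907571280453832525372287753159440384 * y ^ 5
    + 23316572689055258576356927562448680220256053930842112 * y ^ 6
    + 4710519303488007593735010588729075360812008781955072 * y ^ 7
    + 783772506269569271103486795650444877093511963533312 * y ^ 8
    + 108775310788194870831203218083657288537643353243648 * y ^ 9
    + 12703599543083291779669968552148475589786380402688 * y ^ 10
    + 1255829444938457940677539249241453708217596510208 * y ^ 11
    + 105445623959422057638898216845979760402989842432 * y ^ 12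
    + 7529385691474199908552869392496661447150927872 * y ^ 13
    + 456828340680882052014673468381303596137840640 * y ^ 14
    + 23479842162598595048636307958699101008166912 * y ^ 15
    + 1016754935918680412521419795343186266685440 * y ^ 16
    + 36785348449431435644737814474651439464448 * y ^ 17
    + 1098461106128764115869755490746557792256 * y ^ 18
    + 26605787089905098348929638349739655168 * y ^ 19
    + 509633250659535695471840709832605696 * y ^ 20 + 7430576031386446482140724297990144 * y ^ 21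
    + 77492323482101542392213276721152 * y ^ 22 + 514920685042362862133865086976 * y ^ 23
    + 1638234825350031200841891840 * y ^ 24

theorem det7_eq (y : ℝ) :
    (xA0 y * xM1 y * xB6 y +
      xA0 y * xM2 y * xB5 y +
      xA0 y * xM3 y * xB4 y +
      xA0 y * xM4 y * xB3 y +
      xA0 y * xM5 y * xB2 y +
      xA0 y * xM6 y * xB1 y +
      xA1 y * xM0 y * xB6 y +
      xA1 y * xM1 y * xB5 y +
      xA1 y * xM2 y * xB4 y +
      xA1 y * xM3 y * xB3 y +
      xA1 y * xM4 y * xB2 y +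
      xA1 y * xM5 y * xB1 y +
      xA1 y * xM6 y * xB0 y +
      xA2 y * xM0 y * xB5 y +
      xA2 y * xM1 y * xB4 y +
      xA2 y * xM2 y * xB3 y +
      xA2 y * xM3 y * xB2 y +
      xA2 y * xM4 y * xB1 y +
      xA2 y * xM5 y * xB0 y +
      xA3 y * xM0 y * xB4 y +
      xA3 y * xM1 y * xB3 y +
      xA3 y * xM2 y * xB2 y +
      xA3 y * xM3 y * xB1 y +
      xA3 y * xM4 y * xB0 y +
      xA4 y * xM0 y * xB3 y +
      xA4 y * xM1 y * xB2 y +
      xA4 y * xM2 y * xB1 y +
      xA4 y * xM3 y * xB0 y +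
      xA5 y * xM0 y * xB2 y +
      xA5 y * xM1 y * xB1 y +
      xA5 y * xM2 y * xB0 y +
      xA6 y * xM0 y * xB1 y +
      xA6 y * xM1 y * xB0 y)
    + 2 * (xR0 y * xS1 y * xV6 y +
      xR0 y * xS2 y * xV5 y +
      xR0 y * xS3 y * xV4 y +
      xR0 y * xS4 y * xV3 y +
      xR0 y * xS5 y * xV2 y +
      xR0 y * xS6 y * xV1 y +
      xR1 y * xS0 y * xV6 y +
      xR1 y * xS1 y * xV5 y +
      xR1 y * xS2 y * xV4 y +
      xR1 y * xS3 y * xV3 y +
      xR1 y * xS4 y * xV2 y +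
      xR1 y * xS5 y * xV1 y +
      xR1 y * xS6 y * xV0 y +
      xR2 y * xS0 y * xV5 y +
      xR2 y * xS1 y * xV4 y +
      xR2 y * xS2 y * xV3 y +
      xR2 y * xS3 y * xV2 y +
      xR2 y * xS4 y * xV1 y +
      xR2 y * xS5 y * xV0 y +
      xR3 y * xS0 y * xV4 y +
      xR3 y * xS1 y * xV3 y +
      xR3 y * xS2 y * xV2 y +
      xR3 y * xS3 y * xV1 y +
      xR3 y * xS4 y * xV0 y +
      xR4 y * xS0 y * xV3 y +
      xR4 y * xS1 y * xV2 y +
      xR4 y * xS2 y * xV1 y +
      xR4 y * xS3 y * xV0 y +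
      xR5 y * xS0 y * xV2 y +
      xR5 y * xS1 y * xV1 y +
      xR5 y * xS2 y * xV0 y +
      xR6 y * xS0 y * xV1 y +
      xR6 y * xS1 y * xV0 y)
    - (xA0 y * xS1 y * xS6 y +
      xA0 y * xS2 y * xS5 y +
      xA0 y * xS3 y * xS4 y +
      xA0 y * xS4 y * xS3 y +
      xA0 y * xS5 y * xS2 y +
      xA0 y * xS6 y * xS1 y +
      xA1 y * xS0 y * xS6 y +
      xA1 y * xS1 y * xS5 y +
      xA1 y * xS2 y * xS4 y +
      xA1 y * xS3 y * xS3 y +
      xA1 y * xS4 y * xS2 y +
      xA1 y * xS5 y * xS1 y +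
      xA1 y * xS6 y * xS0 y +
      xA2 y * xS0 y * xS5 y +
      xA2 y * xS1 y * xS4 y +
      xA2 y * xS2 y * xS3 y +
      xA2 y * xS3 y * xS2 y +
      xA2 y * xS4 y * xS1 y +
      xA2 y * xS5 y * xS0 y +
      xA3 y * xS0 y * xS4 y +
      xA3 y * xS1 y * xS3 y +
      xA3 y * xS2 y * xS2 y +
      xA3 y * xS3 y * xS1 y +
      xA3 y * xS4 y * xS0 y +
      xA4 y * xS0 y * xS3 y +
      xA4 y * xS1 y * xS2 y +
      xA4 y * xS2 y * xS1 y +
      xA4 y * xS3 y * xS0 y +
      xA5 y * xS0 y * xS2 y +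
      xA5 y * xS1 y * xS1 y +
      xA5 y * xS2 y * xS0 y +
      xA6 y * xS0 y * xS1 y +
      xA6 y * xS1 y * xS0 y)
    - (xB0 y * xR1 y * xR6 y +
      xB0 y * xR2 y * xR5 y +
      xB0 y * xR3 y * xR4 y +
      xB0 y * xR4 y * xR3 y +
      xB0 y * xR5 y * xR2 y +
      xB0 y * xR6 y * xR1 y +
      xB1 y * xR0 y * xR6 y +
      xB1 y * xR1 y * xR5 y +
      xB1 y * xR2 y * xR4 y +
      xB1 y * xR3 y * xR3 y +
      xB1 y * xR4 y * xR2 y +
      xB1 y * xR5 y * xR1 y +
      xB1 y * xR6 y * xR0 y +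
      xB2 y * xR0 y * xR5 y +
      xB2 y * xR1 y * xR4 y +
      xB2 y * xR2 y * xR3 y +
      xB2 y * xR3 y * xR2 y +
      xB2 y * xR4 y * xR1 y +
      xB2 y * xR5 y * xR0 y +
      xB3 y * xR0 y * xR4 y +
      xB3 y * xR1 y * xR3 y +
      xB3 y * xR2 y * xR2 y +
      xB3 y * xR3 y * xR1 y +
      xB3 y * xR4 y * xR0 y +
      xB4 y * xR0 y * xR3 y +
      xB4 y * xR1 y * xR2 y +
      xB4 y * xR2 y * xR1 y +
      xB4 y * xR3 y * xR0 y +
      xB5 y * xR0 y * xR2 y +
      xB5 y * xR1 y * xR1 y +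
      xB5 y * xR2 y * xR0 y +
      xB6 y * xR0 y * xR1 y +
      xB6 y * xR1 y * xR0 y)
    - (xV0 y * xV1 y * xM6 y +
      xV0 y * xV2 y * xM5 y +
      xV0 y * xV3 y * xM4 y +
      xV0 y * xV4 y * xM3 y +
      xV0 y * xV5 y * xM2 y +
      xV0 y * xV6 y * xM1 y +
      xV1 y * xV0 y * xM6 y +
      xV1 y * xV1 y * xM5 y +
      xV1 y * xV2 y * xM4 y +
      xV1 y * xV3 y * xM3 y +
      xV1 y * xV4 y * xM2 y +
      xV1 y * xV5 y * xM1 y +
      xV1 y * xV6 y * xM0 y +
      xV2 y * xV0 y * xM5 y +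
      xV2 y * xV1 y * xM4 y +
      xV2 y * xV2 y * xM3 y +
      xV2 y * xV3 y * xM2 y +
      xV2 y * xV4 y * xM1 y +
      xV2 y * xV5 y * xM0 y +
      xV3 y * xV0 y * xM4 y +
      xV3 y * xV1 y * xM3 y +
      xV3 y * xV2 y * xM2 y +
      xV3 y * xV3 y * xM1 y +
      xV3 y * xV4 y * xM0 y +
      xV4 y * xV0 y * xM3 y +
      xV4 y * xV1 y * xM2 y +
      xV4 y * xV2 y * xM1 y +
      xV4 y * xV3 y * xM0 y +
      xV5 y * xV0 y * xM2 y +
      xV5 y * xV1 y * xM1 y +
      xV5 y * xV2 y * xM0 y +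
      xV6 y * xV0 y * xM1 y +
      xV6 y * xV1 y * xM0 y) = det7 y := by
  simp only [det7, xA0, xA1, xA2, xA3, xA4, xA5, xA6, xB0, xB1,
    xB2, xB3, xB4, xB5, xB6, xM0, xM1, xM2, xM3,
    xM4, xM5, xM6, xR0, xR1, xR2, xR3, xR4, xR5,
    xR6, xS0, xS1, xS2, xS3, xS4, xS5, xS6, xV0,
    xV1, xV2, xV3, xV4, xV5, xV6]
  ring

theorem det7_nonneg {y : ℝ} (hy : 0 ≤ y) : 0 ≤ det7 y := by
  unfold det7
  positivity

/-- A coefficient of the determinant. -/
def det8 (y : ℝ) : ℝ :=
    240186048292832477543008550504163003018950945184490752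
    + 463477725552917078057467618916962007008512087020024832 * y
    + 425739735523631970020359007779024754206183002718971648 * y ^ 2
    + 247992208410100890782021560955946556985076497113254912 * y ^ 3
    + 102921202071934320198082994714730310106887489508236800 * y ^ 4
    + 32408776095170449197778792623373895314775556164434944 * y ^ 5
    + 8049684409521869071048117974843160718228074158336000 * y ^ 6
    + 1618344051328285359787819391597146856578166390476800 * y ^ 7
    + 268107225501354955749373624934798226154498112176128 * y ^ 8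
    + 37064614348410142892626585383132012512521417850880 * y ^ 9
    + 4313534235666088828817186782105766561151427805184 * y ^ 10
    + 425068172115347881269970280605936278880078528512 * y ^ 11
    + 35588004691484985832309761574178547268821712896 * y ^ 12
    + 2534498865288619078436233428654752207693414400 * y ^ 13
    + 153405362841138350645055526459517218185019392 * y ^ 14
    + 7867273345505155873199865124001667688169472 * y ^ 15
    + 339988567269908498443413019088198849003520 * y ^ 16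
    + 12277540066643034654208233723649415184384 * y ^ 17
    + 365992635820673809540197022817360805888 * y ^ 18
    + 8850581194702068046680798329667846144 * y ^ 19
    + 169282934877903936524765122900525056 * y ^ 20 + 2464818320096932108175025893277696 * y ^ 21
    + 25672694916284845405089627635712 * y ^ 22 + 170389702196042004911011921920 * y ^ 23
    + 541509661824316613358256128 * y ^ 24

theorem det8_eq (y : ℝ) :
    (xA0 y * xM2 y * xB6 y +
      xA0 y * xM3 y * xB5 y +
      xA0 y * xM4 y * xB4 y +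
      xA0 y * xM5 y * xB3 y +
      xA0 y * xM6 y * xB2 y +
      xA1 y * xM1 y * xB6 y +
      xA1 y * xM2 y * xB5 y +
      xA1 y * xM3 y * xB4 y +
      xA1 y * xM4 y * xB3 y +
      xA1 y * xM5 y * xB2 y +
      xA1 y * xM6 y * xB1 y +
      xA2 y * xM0 y * xB6 y +
      xA2 y * xM1 y * xB5 y +
      xA2 y * xM2 y * xB4 y +
      xA2 y * xM3 y * xB3 y +
      xA2 y * xM4 y * xB2 y +
      xA2 y * xM5 y * xB1 y +
      xA2 y * xM6 y * xB0 y +
      xA3 y * xM0 y * xB5 y +
      xA3 y * xM1 y * xB4 y +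
      xA3 y * xM2 y * xB3 y +
      xA3 y * xM3 y * xB2 y +
      xA3 y * xM4 y * xB1 y +
      xA3 y * xM5 y * xB0 y +
      xA4 y * xM0 y * xB4 y +
      xA4 y * xM1 y * xB3 y +
      xA4 y * xM2 y * xB2 y +
      xA4 y * xM3 y * xB1 y +
      xA4 y * xM4 y * xB0 y +
      xA5 y * xM0 y * xB3 y +
      xA5 y * xM1 y * xB2 y +
      xA5 y * xM2 y * xB1 y +
      xA5 y * xM3 y * xB0 y +
      xA6 y * xM0 y * xB2 y +
      xA6 y * xM1 y * xB1 y +
      xA6 y * xM2 y * xB0 y)
    + 2 * (xR0 y * xS2 y * xV6 y +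
      xR0 y * xS3 y * xV5 y +
      xR0 y * xS4 y * xV4 y +
      xR0 y * xS5 y * xV3 y +
      xR0 y * xS6 y * xV2 y +
      xR1 y * xS1 y * xV6 y +
      xR1 y * xS2 y * xV5 y +
      xR1 y * xS3 y * xV4 y +
      xR1 y * xS4 y * xV3 y +
      xR1 y * xS5 y * xV2 y +
      xR1 y * xS6 y * xV1 y +
      xR2 y * xS0 y * xV6 y +
      xR2 y * xS1 y * xV5 y +
      xR2 y * xS2 y * xV4 y +
      xR2 y * xS3 y * xV3 y +
      xR2 y * xS4 y * xV2 y +
      xR2 y * xS5 y * xV1 y +
      xR2 y * xS6 y * xV0 y +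
      xR3 y * xS0 y * xV5 y +
      xR3 y * xS1 y * xV4 y +
      xR3 y * xS2 y * xV3 y +
      xR3 y * xS3 y * xV2 y +
      xR3 y * xS4 y * xV1 y +
      xR3 y * xS5 y * xV0 y +
      xR4 y * xS0 y * xV4 y +
      xR4 y * xS1 y * xV3 y +
      xR4 y * xS2 y * xV2 y +
      xR4 y * xS3 y * xV1 y +
      xR4 y * xS4 y * xV0 y +
      xR5 y * xS0 y * xV3 y +
      xR5 y * xS1 y * xV2 y +
      xR5 y * xS2 y * xV1 y +
      xR5 y * xS3 y * xV0 y +
      xR6 y * xS0 y * xV2 y +
      xR6 y * xS1 y * xV1 y +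
      xR6 y * xS2 y * xV0 y)
    - (xA0 y * xS2 y * xS6 y +
      xA0 y * xS3 y * xS5 y +
      xA0 y * xS4 y * xS4 y +
      xA0 y * xS5 y * xS3 y +
      xA0 y * xS6 y * xS2 y +
      xA1 y * xS1 y * xS6 y +
      xA1 y * xS2 y * xS5 y +
      xA1 y * xS3 y * xS4 y +
      xA1 y * xS4 y * xS3 y +
      xA1 y * xS5 y * xS2 y +
      xA1 y * xS6 y * xS1 y +
      xA2 y * xS0 y * xS6 y +
      xA2 y * xS1 y * xS5 y +
      xA2 y * xS2 y * xS4 y +
      xA2 y * xS3 y * xS3 y +
      xA2 y * xS4 y * xS2 y +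
      xA2 y * xS5 y * xS1 y +
      xA2 y * xS6 y * xS0 y +
      xA3 y * xS0 y * xS5 y +
      xA3 y * xS1 y * xS4 y +
      xA3 y * xS2 y * xS3 y +
      xA3 y * xS3 y * xS2 y +
      xA3 y * xS4 y * xS1 y +
      xA3 y * xS5 y * xS0 y +
      xA4 y * xS0 y * xS4 y +
      xA4 y * xS1 y * xS3 y +
      xA4 y * xS2 y * xS2 y +
      xA4 y * xS3 y * xS1 y +
      xA4 y * xS4 y * xS0 y +
      xA5 y * xS0 y * xS3 y +
      xA5 y * xS1 y * xS2 y +
      xA5 y * xS2 y * xS1 y +
      xA5 y * xS3 y * xS0 y +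
      xA6 y * xS0 y * xS2 y +
      xA6 y * xS1 y * xS1 y +
      xA6 y * xS2 y * xS0 y)
    - (xB0 y * xR2 y * xR6 y +
      xB0 y * xR3 y * xR5 y +
      xB0 y * xR4 y * xR4 y +
      xB0 y * xR5 y * xR3 y +
      xB0 y * xR6 y * xR2 y +
      xB1 y * xR1 y * xR6 y +
      xB1 y * xR2 y * xR5 y +
      xB1 y * xR3 y * xR4 y +
      xB1 y * xR4 y * xR3 y +
      xB1 y * xR5 y * xR2 y +
      xB1 y * xR6 y * xR1 y +
      xB2 y * xR0 y * xR6 y +
      xB2 y * xR1 y * xR5 y +
      xB2 y * xR2 y * xR4 y +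
      xB2 y * xR3 y * xR3 y +
      xB2 y * xR4 y * xR2 y +
      xB2 y * xR5 y * xR1 y +
      xB2 y * xR6 y * xR0 y +
      xB3 y * xR0 y * xR5 y +
      xB3 y * xR1 y * xR4 y +
      xB3 y * xR2 y * xR3 y +
      xB3 y * xR3 y * xR2 y +
      xB3 y * xR4 y * xR1 y +
      xB3 y * xR5 y * xR0 y +
      xB4 y * xR0 y * xR4 y +
      xB4 y * xR1 y * xR3 y +
      xB4 y * xR2 y * xR2 y +
      xB4 y * xR3 y * xR1 y +
      xB4 y * xR4 y * xR0 y +
      xB5 y * xR0 y * xR3 y +
      xB5 y * xR1 y * xR2 y +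
      xB5 y * xR2 y * xR1 y +
      xB5 y * xR3 y * xR0 y +
      xB6 y * xR0 y * xR2 y +
      xB6 y * xR1 y * xR1 y +
      xB6 y * xR2 y * xR0 y)
    - (xV0 y * xV2 y * xM6 y +
      xV0 y * xV3 y * xM5 y +
      xV0 y * xV4 y * xM4 y +
      xV0 y * xV5 y * xM3 y +
      xV0 y * xV6 y * xM2 y +
      xV1 y * xV1 y * xM6 y +
      xV1 y * xV2 y * xM5 y +
      xV1 y * xV3 y * xM4 y +
      xV1 y * xV4 y * xM3 y +
      xV1 y * xV5 y * xM2 y +
      xV1 y * xV6 y * xM1 y +
      xV2 y * xV0 y * xM6 y +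
      xV2 y * xV1 y * xM5 y +
      xV2 y * xV2 y * xM4 y +
      xV2 y * xV3 y * xM3 y +
      xV2 y * xV4 y * xM2 y +
      xV2 y * xV5 y * xM1 y +
      xV2 y * xV6 y * xM0 y +
      xV3 y * xV0 y * xM5 y +
      xV3 y * xV1 y * xM4 y +
      xV3 y * xV2 y * xM3 y +
      xV3 y * xV3 y * xM2 y +
      xV3 y * xV4 y * xM1 y +
      xV3 y * xV5 y * xM0 y +
      xV4 y * xV0 y * xM4 y +
      xV4 y * xV1 y * xM3 y +
      xV4 y * xV2 y * xM2 y +
      xV4 y * xV3 y * xM1 y +
      xV4 y * xV4 y * xM0 y +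
      xV5 y * xV0 y * xM3 y +
      xV5 y * xV1 y * xM2 y +
      xV5 y * xV2 y * xM1 y +
      xV5 y * xV3 y * xM0 y +
      xV6 y * xV0 y * xM2 y +
      xV6 y * xV1 y * xM1 y +
      xV6 y * xV2 y * xM0 y) = det8 y := by
  simp only [det8, xA0, xA1, xA2, xA3, xA4, xA5, xA6, xB0, xB1,
    xB2, xB3, xB4, xB5, xB6, xM0, xM1, xM2, xM3,
    xM4, xM5, xM6, xR0, xR1, xR2, xR3, xR4, xR5,
    xR6, xS0, xS1, xS2, xS3, xS4, xS5, xS6, xV0,
    xV1, xV2, xV3, xV4, xV5, xV6]
  ring

theorem det8_nonneg {y : ℝ} (hy : 0 ≤ y) : 0 ≤ det8 y := by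
  unfold det8
  positivity

end Vale.Agent.P100.Far
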