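import Vale.Agent.P100.Far.DetEntries

/-!
# P100: coefficients of the determinant of the quartic block
-/

namespace Vale.Agent.P100.Far

/-- A coefficient of the determinant. -/
def det13 (y : ℝ) : ℝ :=
    36267853667488138065941303826050817208802054217504
    + 67847108418616772606498847838450630417151862299232 * y
    + 60655657676456541360909199281297067275844757901408 * y ^ 2
    + 34497151693933548308702467757659965119194035044832 * y ^ 3
    + 14016133215905390851774554273186208132919226736704 * y ^ 4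
    + 4330533492179983093267561429391434183052053689600 * y ^ 5
    + 1057413451848477488383671140708948421117506411520 * y ^ 6
    + 209333450174959338696799343422432896469008784896 * y ^ 7
    + 34197717709782956695969010047319977453219390464 * y ^ 8
    + 4667767509996163506789947293048962498398846976 * y ^ 9
    + 536931550188922118943841853241654187414732800 * y ^ 10
    + 52348000491069861942579540497403079300202496 * y ^ 11
    + 4339847276281128253342482274111568501833728 * y ^ 12
    + 306285287695856469160972839479261257924608 * y ^ 13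
    + 18383908880984951046995224362180642078720 * y ^ 14
    + 935525618645968797025900685892086661120 * y ^ 15
    + 40139819162784265265514764636036530176 * y ^ 16
    + 1439877577388893253002124146425987072 * y ^ 17
    + 42657342756915740531923478680436736 * y ^ 18 + 1025622687864780702745567841746944 * y ^ 19
    + 19511717733638136711041054146560 * y ^ 20 + 282678343412781234555816247296 * y ^ 21
    + 2930564843247658115014852608 * y ^ 22 + 19365639221382687070617600 * y ^ 23
    + 61295727212509947494400 * y ^ 24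

theorem det13_eq (y : ℝ) :
    (xA1 y * xM6 y * xB6 y +
      xA2 y * xM5 y * xB6 y +
      xA2 y * xM6 y * xB5 y +
      xA3 y * xM4 y * xB6 y +
      xA3 y * xM5 y * xB5 y +
      xA3 y * xM6 y * xB4 y +
      xA4 y * xM3 y * xB6 y +
      xA4 y * xM4 y * xB5 y +
      xA4 y * xM5 y * xB4 y +
      xA4 y * xM6 y * xB3 y +
      xA5 y * xM2 y * xB6 y +
      xA5 y * xM3 y * xB5 y +
      xA5 y * xM4 y * xB4 y +
      xA5 y * xM5 y * xB3 y +
      xA5 y * xM6 y * xB2 y +
      xA6 y * xM1 y * xB6 y +
      xA6 y * xM2 y * xB5 y +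
      xA6 y * xM3 y * xB4 y +
      xA6 y * xM4 y * xB3 y +
      xA6 y * xM5 y * xB2 y +
      xA6 y * xM6 y * xB1 y)
    + 2 * (xR1 y * xS6 y * xV6 y +
      xR2 y * xS5 y * xV6 y +
      xR2 y * xS6 y * xV5 y +
      xR3 y * xS4 y * xV6 y +
      xR3 y * xS5 y * xV5 y +
      xR3 y * xS6 y * xV4 y +
      xR4 y * xS3 y * xV6 y +
      xR4 y * xS4 y * xV5 y +
      xR4 y * xS5 y * xV4 y +
      xR4 y * xS6 y * xV3 y +
      xR5 y * xS2 y * xV6 y +
      xR5 y * xS3 y * xV5 y +
      xR5 y * xS4 y * xV4 y +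
      xR5 y * xS5 y * xV3 y +
      xR5 y * xS6 y * xV2 y +
      xR6 y * xS1 y * xV6 y +
      xR6 y * xS2 y * xV5 y +
      xR6 y * xS3 y * xV4 y +
      xR6 y * xS4 y * xV3 y +
      xR6 y * xS5 y * xV2 y +
      xR6 y * xS6 y * xV1 y)
    - (xA1 y * xS6 y * xS6 y +
      xA2 y * xS5 y * xS6 y +
      xA2 y * xS6 y * xS5 y +
      xA3 y * xS4 y * xS6 y +
      xA3 y * xS5 y * xS5 y +
      xA3 y * xS6 y * xS4 y +
      xA4 y * xS3 y * xS6 y +
      xA4 y * xS4 y * xS5 y +
      xA4 y * xS5 y * xS4 y +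
      xA4 y * xS6 y * xS3 y +
      xA5 y * xS2 y * xS6 y +
      xA5 y * xS3 y * xS5 y +
      xA5 y * xS4 y * xS4 y +
      xA5 y * xS5 y * xS3 y +
      xA5 y * xS6 y * xS2 y +
      xA6 y * xS1 y * xS6 y +
      xA6 y * xS2 y * xS5 y +
      xA6 y * xS3 y * xS4 y +
      xA6 y * xS4 y * xS3 y +
      xA6 y * xS5 y * xS2 y +
      xA6 y * xS6 y * xS1 y)
    - (xB1 y * xR6 y * xR6 y +
      xB2 y * xR5 y * xR6 y +
      xB2 y * xR6 y * xR5 y +
      xB3 y * xR4 y * xR6 y +
      xB3 y * xR5 y * xR5 y +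
      xB3 y * xR6 y * xR4 y +
      xB4 y * xR3 y * xR6 y +
      xB4 y * xR4 y * xR5 y +
      xB4 y * xR5 y * xR4 y +
      xB4 y * xR6 y * xR3 y +
      xB5 y * xR2 y * xR6 y +
      xB5 y * xR3 y * xR5 y +
      xB5 y * xR4 y * xR4 y +
      xB5 y * xR5 y * xR3 y +
      xB5 y * xR6 y * xR2 y +
      xB6 y * xR1 y * xR6 y +
      xB6 y * xR2 y * xR5 y +
      xB6 y * xR3 y * xR4 y +
      xB6 y * xR4 y * xR3 y +
      xB6 y * xR5 y * xR2 y +
      xB6 y * xR6 y * xR1 y)
    - (xV1 y * xV6 y * xM6 y +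
      xV2 y * xV5 y * xM6 y +
      xV2 y * xV6 y * xM5 y +
      xV3 y * xV4 y * xM6 y +
      xV3 y * xV5 y * xM5 y +
      xV3 y * xV6 y * xM4 y +
      xV4 y * xV3 y * xM6 y +
      xV4 y * xV4 y * xM5 y +
      xV4 y * xV5 y * xM4 y +
      xV4 y * xV6 y * xM3 y +
      xV5 y * xV2 y * xM6 y +
      xV5 y * xV3 y * xM5 y +
      xV5 y * xV4 y * xM4 y +
      xV5 y * xV5 y * xM3 y +
      xV5 y * xV6 y * xM2 y +
      xV6 y * xV1 y * xM6 y +
      xV6 y * xV2 y * xM5 y +
      xV6 y * xV3 y * xM4 y +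
      xV6 y * xV4 y * xM3 y +
      xV6 y * xV5 y * xM2 y +
      xV6 y * xV6 y * xM1 y) = det13 y := by
  simp only [det13, xA1, xA2, xA3, xA4, xA5, xA6, xB1, xB2, xB3,
    xB4, xB5, xB6, xM1, xM2, xM3, xM4, xM5, xM6,
    xR1, xR2, xR3, xR4, xR5, xR6, xS1, xS2, xS3,
    xS4, xS5, xS6, xV1, xV2, xV3, xV4, xV5, xV6]
  ring

theorem det13_nonneg {y : ℝ} (hy : 0 ≤ y) : 0 ≤ det13 y := by
  unfold det13
  positivity

/-- A coefficient of the determinant. -/
def det14 (y : ℝ) : ℝ :=
    2726129830056962156110309885962789397444998839936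
    + 5082394395459086670280110866909026824845354003136 * y
    + 4529687976334253268167465658538227983202543906432 * y ^ 2
    + 2569019327094422103001840407851380924744795384320 * y ^ 3
    + 1041142053962490953272865451512276486015230989312 * y ^ 4
    + 320935257978545496488195224181272374529270096896 * y ^ 5
    + 78198812526904838217697800932258229938326353920 * y ^ 6
    + 15450713805096918905795530064156743241482543104 * y ^ 7
    + 2519582901982392451529249060386375659290738688 * y ^ 8
    + 343338355198899853268578238322388500308656128 * y ^ 9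
    + 39433697696249262915358157805658388793458688 * y ^ 10
    + 3839129887506870034648669850240303512682496 * y ^ 11
    + 317859638646583308206678928980931157426176 * y ^ 12
    + 22405540863337080510600985692689763139584 * y ^ 13
    + 1343297327268544193699530618487077601280 * y ^ 14
    + 68285507070503161967429804775180337152 * y ^ 15
    + 2926965986522661927957545730636251136 * y ^ 16
    + 104897630281432952718940839566376960 * y ^ 17 + 3104974477239342686259443079839744 * y ^ 18
    + 74593389510058013688548479205376 * y ^ 19 + 1418010171855891285576523972608 * y ^ 20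
    + 20529036982423776757567979520 * y ^ 21 + 212686169376608754415435776 * y ^ 22
    + 1404591490260583562870784 * y ^ 23 + 4443200751507077070848 * y ^ 24

theorem det14_eq (y : ℝ) :
    (xA2 y * xM6 y * xB6 y +
      xA3 y * xM5 y * xB6 y +
      xA3 y * xM6 y * xB5 y +
      xA4 y * xM4 y * xB6 y +
      xA4 y * xM5 y * xB5 y +
      xA4 y * xM6 y * xB4 y +
      xA5 y * xM3 y * xB6 y +
      xA5 y * xM4 y * xB5 y +
      xA5 y * xM5 y * xB4 y +
      xA5 y * xM6 y * xB3 y +
      xA6 y * xM2 y * xB6 y +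
      xA6 y * xM3 y * xB5 y +
      xA6 y * xM4 y * xB4 y +
      xA6 y * xM5 y * xB3 y +
      xA6 y * xM6 y * xB2 y)
    + 2 * (xR2 y * xS6 y * xV6 y +
      xR3 y * xS5 y * xV6 y +
      xR3 y * xS6 y * xV5 y +
      xR4 y * xS4 y * xV6 y +
      xR4 y * xS5 y * xV5 y +
      xR4 y * xS6 y * xV4 y +
      xR5 y * xS3 y * xV6 y +
      xR5 y * xS4 y * xV5 y +
      xR5 y * xS5 y * xV4 y +
      xR5 y * xS6 y * xV3 y +
      xR6 y * xS2 y * xV6 y +
      xR6 y * xS3 y * xV5 y +
      xR6 y * xS4 y * xV4 y +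
      xR6 y * xS5 y * xV3 y +
      xR6 y * xS6 y * xV2 y)
    - (xA2 y * xS6 y * xS6 y +
      xA3 y * xS5 y * xS6 y +
      xA3 y * xS6 y * xS5 y +
      xA4 y * xS4 y * xS6 y +
      xA4 y * xS5 y * xS5 y +
      xA4 y * xS6 y * xS4 y +
      xA5 y * xS3 y * xS6 y +
      xA5 y * xS4 y * xS5 y +
      xA5 y * xS5 y * xS4 y +
      xA5 y * xS6 y * xS3 y +
      xA6 y * xS2 y * xS6 y +
      xA6 y * xS3 y * xS5 y +
      xA6 y * xS4 y * xS4 y +
      xA6 y * xS5 y * xS3 y +
      xA6 y * xS6 y * xS2 y)
    - (xB2 y * xR6 y * xR6 y +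
      xB3 y * xR5 y * xR6 y +
      xB3 y * xR6 y * xR5 y +
      xB4 y * xR4 y * xR6 y +
      xB4 y * xR5 y * xR5 y +
      xB4 y * xR6 y * xR4 y +
      xB5 y * xR3 y * xR6 y +
      xB5 y * xR4 y * xR5 y +
      xB5 y * xR5 y * xR4 y +
      xB5 y * xR6 y * xR3 y +
      xB6 y * xR2 y * xR6 y +
      xB6 y * xR3 y * xR5 y +
      xB6 y * xR4 y * xR4 y +
      xB6 y * xR5 y * xR3 y +
      xB6 y * xR6 y * xR2 y)
    - (xV2 y * xV6 y * xM6 y +
      xV3 y * xV5 y * xM6 y +
      xV3 y * xV6 y * xM5 y +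
      xV4 y * xV4 y * xM6 y +
      xV4 y * xV5 y * xM5 y +
      xV4 y * xV6 y * xM4 y +
      xV5 y * xV3 y * xM6 y +
      xV5 y * xV4 y * xM5 y +
      xV5 y * xV5 y * xM4 y +
      xV5 y * xV6 y * xM3 y +
      xV6 y * xV2 y * xM6 y +
      xV6 y * xV3 y * xM5 y +
      xV6 y * xV4 y * xM4 y +
      xV6 y * xV5 y * xM3 y +
      xV6 y * xV6 y * xM2 y) = det14 y := by
  simp only [det14, xA2, xA3, xA4, xA5, xA6, xB2, xB3, xB4, xB5,
    xB6, xM2, xM3, xM4, xM5, xM6, xR2, xR3, xR4,
    xR5, xR6, xS2, xS3, xS4, xS5, xS6, xV2, xV3,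
    xV4, xV5, xV6]
  ring

theorem det14_nonneg {y : ℝ} (hy : 0 ≤ y) : 0 ≤ det14 y := by
  unfold det14
  positivity

/-- A coefficient of the determinant. -/
def det15 (y : ℝ) : ℝ :=
    141957186423789433967550862506154942734073556384
    + 263886254895799729213061151819704433095573722944 * y
    + 234570525564497346777071118898102378166421647328 * y ^ 2
    + 132718935282845037708809441468198038169288142720 * y ^ 3
    + 53669379046618850598147367525147363131973120128 * y ^ 4
    + 16510680568827155510484988448478677054006697984 * y ^ 5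
    + 4015590850183813997044628486652475245021739520 * y ^ 6
    + 792068349666654998402112176983226429362477056 * y ^ 7
    + 128962673880764696840060662238107762074826752 * y ^ 8
    + 17548085115785193855855871470262682526646272 * y ^ 9
    + 2012763737333925629313327238348141359316992 * y ^ 10
    + 195712051272049986172321347160472061149184 * y ^ 11
    + 16185177284121998713009691020979079020544 * y ^ 12
    + 1139644470820532217496741491737027936256 * y ^ 13
    + 68257387902816969662296388899366502400 * y ^ 14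
    + 3466560072466985004928159020034818048 * y ^ 15
    + 148459294269307345281395369305964544 * y ^ 16 + 5316180722262086696265538873589760 * y ^ 17
    + 157238698604630217512945016897536 * y ^ 18 + 3774769783767278660332849987584 * y ^ 19
    + 71709732784261943314058575872 * y ^ 20 + 1037515390410597586698240000 * y ^ 21
    + 10742610149541139043057664 * y ^ 22 + 70905755292692933246976 * y ^ 23
    + 224183466580930199552 * y ^ 24

theorem det15_eq (y : ℝ) :
    (xA3 y * xM6 y * xB6 y +
      xA4 y * xM5 y * xB6 y +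
      xA4 y * xM6 y * xB5 y +
      xA5 y * xM4 y * xB6 y +
      xA5 y * xM5 y * xB5 y +
      xA5 y * xM6 y * xB4 y +
      xA6 y * xM3 y * xB6 y +
      xA6 y * xM4 y * xB5 y +
      xA6 y * xM5 y * xB4 y +
      xA6 y * xM6 y * xB3 y)
    + 2 * (xR3 y * xS6 y * xV6 y +
      xR4 y * xS5 y * xV6 y +
      xR4 y * xS6 y * xV5 y +
      xR5 y * xS4 y * xV6 y +
      xR5 y * xS5 y * xV5 y +
      xR5 y * xS6 y * xV4 y +
      xR6 y * xS3 y * xV6 y +
      xR6 y * xS4 y * xV5 y +
      xR6 y * xS5 y * xV4 y +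
      xR6 y * xS6 y * xV3 y)
    - (xA3 y * xS6 y * xS6 y +
      xA4 y * xS5 y * xS6 y +
      xA4 y * xS6 y * xS5 y +
      xA5 y * xS4 y * xS6 y +
      xA5 y * xS5 y * xS5 y +
      xA5 y * xS6 y * xS4 y +
      xA6 y * xS3 y * xS6 y +
      xA6 y * xS4 y * xS5 y +
      xA6 y * xS5 y * xS4 y +
      xA6 y * xS6 y * xS3 y)
    - (xB3 y * xR6 y * xR6 y +
      xB4 y * xR5 y * xR6 y +
      xB4 y * xR6 y * xR5 y +
      xB5 y * xR4 y * xR6 y +
      xB5 y * xR5 y * xR5 y +
      xB5 y * xR6 y * xR4 y +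
      xB6 y * xR3 y * xR6 y +
      xB6 y * xR4 y * xR5 y +
      xB6 y * xR5 y * xR4 y +
      xB6 y * xR6 y * xR3 y)
    - (xV3 y * xV6 y * xM6 y +
      xV4 y * xV5 y * xM6 y +
      xV4 y * xV6 y * xM5 y +
      xV5 y * xV4 y * xM6 y +
      xV5 y * xV5 y * xM5 y +
      xV5 y * xV6 y * xM4 y +
      xV6 y * xV3 y * xM6 y +
      xV6 y * xV4 y * xM5 y +
      xV6 y * xV5 y * xM4 y +
      xV6 y * xV6 y * xM3 y) = det15 y := by
  simp only [det15, xA3, xA4, xA5, xA6, xB3, xB4, xB5, xB6, xM3,
    xM4, xM5, xM6, xR3, xR4, xR5, xR6, xS3, xS4,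
    xS5, xS6, xV3, xV4, xV5, xV6]
  ring

theorem det15_nonneg {y : ℝ} (hy : 0 ≤ y) : 0 ≤ det15 y := by
  unfold det15
  positivity

/-- A coefficient of the determinant. -/
def det16 (y : ℝ) : ℝ :=
    4575781940645989219653096823912438871026243200
    + 8484949593850572840737255884941099573061496640 * y
    + 7525368348456383679411943664082040190351249280 * y ^ 2
    + 4249073346191177040196699594176582182522403840 * y ^ 3
    + 1715023259936081508917379959735113776172446720 * y ^ 4
    + 526692443363390796911713633895128443585254400 * y ^ 5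
    + 127893819159982018770052929613122325442549760 * y ^ 6
    + 25189750942096402928843639170385712784957440 * y ^ 7
    + 4095756707036478552323104712721455163801600 * y ^ 8
    + 556611204021475852208028576070173112565760 * y ^ 9
    + 63768509998552173532120492112571642347520 * y ^ 10
    + 6193811117746957805138645335986394890240 * y ^ 11
    + 511702273173961961394214654402560000000 * y ^ 12
    + 35996363664964242771890733668947722240 * y ^ 13
    + 2154049692677957173438627152569303040 * y ^ 14
    + 109306731202100322340841717193768960 * y ^ 15 + 4677578596849149795058573828423680 * y ^ 16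
    + 167378879405647708279385767280640 * y ^ 17 + 4947294166033349009357144064000 * y ^ 18
    + 118692946018024242307242393600 * y ^ 19 + 2253492985955351155640893440 * y ^ 20
    + 32586124252229676092620800 * y ^ 21 + 337227816180562589122560 * y ^ 22
    + 2224768855251867402240 * y ^ 23 + 7030891367261798400 * y ^ 24

theorem det16_eq (y : ℝ) :
    (xA4 y * xM6 y * xB6 y +
      xA5 y * xM5 y * xB6 y +
      xA5 y * xM6 y * xB5 y +
      xA6 y * xM4 y * xB6 y +
      xA6 y * xM5 y * xB5 y +
      xA6 y * xM6 y * xB4 y)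
    + 2 * (xR4 y * xS6 y * xV6 y +
      xR5 y * xS5 y * xV6 y +
      xR5 y * xS6 y * xV5 y +
      xR6 y * xS4 y * xV6 y +
      xR6 y * xS5 y * xV5 y +
      xR6 y * xS6 y * xV4 y)
    - (xA4 y * xS6 y * xS6 y +
      xA5 y * xS5 y * xS6 y +
      xA5 y * xS6 y * xS5 y +
      xA6 y * xS4 y * xS6 y +
      xA6 y * xS5 y * xS5 y +
      xA6 y * xS6 y * xS4 y)
    - (xB4 y * xR6 y * xR6 y +
      xB5 y * xR5 y * xR6 y +
      xB5 y * xR6 y * xR5 y +
      xB6 y * xR4 y * xR6 y +
      xB6 y * xR5 y * xR5 y +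
      xB6 y * xR6 y * xR4 y)
    - (xV4 y * xV6 y * xM6 y +
      xV5 y * xV5 y * xM6 y +
      xV5 y * xV6 y * xM5 y +
      xV6 y * xV4 y * xM6 y +
      xV6 y * xV5 y * xM5 y +
      xV6 y * xV6 y * xM4 y) = det16 y := by
  simp only [det16, xA4, xA5, xA6, xB4, xB5, xB6, xM4, xM5, xM6,
    xR4, xR5, xR6, xS4, xS5, xS6, xV4, xV5, xV6]
  ring

theorem det16_nonneg {y : ℝ} (hy : 0 ≤ y) : 0 ≤ det16 y := by
  unfold det16
  positivity

/-- A coefficient of the determinant. -/
def det17 (y : ℝ) : ℝ :=
    68783813897888668652285245685637329481760800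
    + 127277828275612989421727812044823267411250400 * y
    + 112666248181880509873681682299801448402270400 * y ^ 2
    + 63502880890851354157176669334512985324425600 * y ^ 3
    + 25589682678052282549960188774781088741625600 * y ^ 4
    + 7846995792208820758579295355220375914201600 * y ^ 5
    + 1902818137535052290718682258810779630105600 * y ^ 6
    + 374298370832245882112637039961140369254400 * y ^ 7
    + 60787623344858795962089950179762677657600 * y ^ 8
    + 8251953060654603836775812119390569676800 * y ^ 9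
    + 944427040431271318731201244544308838400 * y ^ 10
    + 91644855357048917371537313784383078400 * y ^ 11
    + 7564558109572678104161526342205440000 * y ^ 12
    + 531700126048823587020942236142796800 * y ^ 13
    + 31792858957334733930744969756672000 * y ^ 14 + 1612161425213420152885568313753600 * y ^ 15
    + 68943110786372979291404736921600 * y ^ 16 + 2465457750350874679137848524800 * y ^ 17
    + 72829852359833898897113088000 * y ^ 18 + 1746336262970185693632921600 * y ^ 19
    + 33138729473009054751129600 * y ^ 20 + 478964663519633473536000 * y ^ 21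
    + 4954488593124320870400 * y ^ 22 + 32672153862144000000 * y ^ 23
    + 103212593971200000 * y ^ 24

theorem det17_eq (y : ℝ) :
    (xA5 y * xM6 y * xB6 y +
      xA6 y * xM5 y * xB6 y +
      xA6 y * xM6 y * xB5 y)
    + 2 * (xR5 y * xS6 y * xV6 y +
      xR6 y * xS5 y * xV6 y +
      xR6 y * xS6 y * xV5 y)
    - (xA5 y * xS6 y * xS6 y +
      xA6 y * xS5 y * xS6 y +
      xA6 y * xS6 y * xS5 y)
    - (xB5 y * xR6 y * xR6 y +
      xB6 y * xR5 y * xR6 y +
      xB6 y * xR6 y * xR5 y)
    - (xV5 y * xV6 y * xM6 y +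
      xV6 y * xV5 y * xM6 y +
      xV6 y * xV6 y * xM5 y) = det17 y := by
  simp only [det17, xA5, xA6, xB5, xB6, xM5, xM6, xR5, xR6, xS5,
    xS6, xV5, xV6]
  ring

theorem det17_nonneg {y : ℝ} (hy : 0 ≤ y) : 0 ≤ det17 y := by
  unfold det17
  positivity

/-- A coefficient of the determinant. -/
def det18 (y : ℝ) : ℝ :=
    0

theorem det18_eq (y : ℝ) :
    (xA6 y * xM6 y * xB6 y)
    + 2 * (xR6 y * xS6 y * xV6 y)
    - (xA6 y * xS6 y * xS6 y)
    - (xB6 y * xR6 y * xR6 y)
    - (xV6 y * xV6 y * xM6 y) = det18 y := by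
  simp only [det18, xA6, xB6, xM6, xR6, xS6, xV6]
  ring

theorem det18_nonneg {y : ℝ} (hy : 0 ≤ y) : 0 ≤ det18 y := by
  unfold det18
  positivity

end Vale.Agent.P100.Far
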