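import Vale.Agent.P100.Far.DetEntries

/-!
# P100: coefficients of the determinant of the quartic block
-/

namespace Vale.Agent.P100.Far

/-- A coefficient of the determinant. -/
def det9 (y : ℝ) : ℝ :=
    68031034685508092164906536261046179242282939731377024
    + 130098759501356643501118253115564770951026063935485184 * y
    + 118585846875503991395286970653156837061980084143222016 * y ^ 2
    + 68614925567169976337066371457694027606413477764641792 * y ^ 3
    + 28310083468505338512954924898961091399263317311883008 * y ^ 4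
    + 8868592964902686784747706843827912055826501472111104 * y ^ 5
    + 2192690209684900929025172892879052678388106539933184 * y ^ 6
    + 439022851652241305489105790622426607074976695726080 * y ^ 7
    + 72464112664746211717609820951906138926766044735488 * y ^ 8
    + 9984521815735734305302207845390180048097504100352 * y ^ 9
    + 1158480921904511027686155988930851842073914081280 * y ^ 10
    + 113846476076018278060709669323660998505525149696 * y ^ 11
    + 9507653741685422376497080511774666388263927808 * y ^ 12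
    + 675556964675562106852988993133911458019278848 * y ^ 13
    + 40802986227828572632956300809839306952933376 * y ^ 14
    + 2088478338963164922664310154685451587289088 * y ^ 15
    + 90092745199036300453083718851599155593216 * y ^ 16
    + 3247997898487836854457417606293285240832 * y ^ 17
    + 96673891459978000338771920675307257856 * y ^ 18
    + 2334478769991706984195208357389271040 * y ^ 19
    + 44592027249575759057764293808226304 * y ^ 20 + 648478786871915504409462391701504 * y ^ 21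
    + 6746628730632913462784050593792 * y ^ 22 + 44729903971628843160890769408 * y ^ 23
    + 142014376988549079965368320 * y ^ 24

theorem det9_eq (y : ℝ) :
    (xA0 y * xM3 y * xB6 y +
      xA0 y * xM4 y * xB5 y +
      xA0 y * xM5 y * xB4 y +
      xA0 y * xM6 y * xB3 y +
      xA1 y * xM2 y * xB6 y +
      xA1 y * xM3 y * xB5 y +
      xA1 y * xM4 y * xB4 y +
      xA1 y * xM5 y * xB3 y +
      xA1 y * xM6 y * xB2 y +
      xA2 y * xM1 y * xB6 y +
      xA2 y * xM2 y * xB5 y +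
      xA2 y * xM3 y * xB4 y +
      xA2 y * xM4 y * xB3 y +
      xA2 y * xM5 y * xB2 y +
      xA2 y * xM6 y * xB1 y +
      xA3 y * xM0 y * xB6 y +
      xA3 y * xM1 y * xB5 y +
      xA3 y * xM2 y * xB4 y +
      xA3 y * xM3 y * xB3 y +
      xA3 y * xM4 y * xB2 y +
      xA3 y * xM5 y * xB1 y +
      xA3 y * xM6 y * xB0 y +
      xA4 y * xM0 y * xB5 y +
      xA4 y * xM1 y * xB4 y +
      xA4 y * xM2 y * xB3 y +
      xA4 y * xM3 y * xB2 y +
      xA4 y * xM4 y * xB1 y +
      xA4 y * xM5 y * xB0 y +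
      xA5 y * xM0 y * xB4 y +
      xA5 y * xM1 y * xB3 y +
      xA5 y * xM2 y * xB2 y +
      xA5 y * xM3 y * xB1 y +
      xA5 y * xM4 y * xB0 y +
      xA6 y * xM0 y * xB3 y +
      xA6 y * xM1 y * xB2 y +
      xA6 y * xM2 y * xB1 y +
      xA6 y * xM3 y * xB0 y)
    + 2 * (xR0 y * xS3 y * xV6 y +
      xR0 y * xS4 y * xV5 y +
      xR0 y * xS5 y * xV4 y +
      xR0 y * xS6 y * xV3 y +
      xR1 y * xS2 y * xV6 y +
      xR1 y * xS3 y * xV5 y +
      xR1 y * xS4 y * xV4 y +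
      xR1 y * xS5 y * xV3 y +
      xR1 y * xS6 y * xV2 y +
      xR2 y * xS1 y * xV6 y +
      xR2 y * xS2 y * xV5 y +
      xR2 y * xS3 y * xV4 y +
      xR2 y * xS4 y * xV3 y +
      xR2 y * xS5 y * xV2 y +
      xR2 y * xS6 y * xV1 y +
      xR3 y * xS0 y * xV6 y +
      xR3 y * xS1 y * xV5 y +
      xR3 y * xS2 y * xV4 y +
      xR3 y * xS3 y * xV3 y +
      xR3 y * xS4 y * xV2 y +
      xR3 y * xS5 y * xV1 y +
      xR3 y * xS6 y * xV0 y +
      xR4 y * xS0 y * xV5 y +
      xR4 y * xS1 y * xV4 y +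
      xR4 y * xS2 y * xV3 y +
      xR4 y * xS3 y * xV2 y +
      xR4 y * xS4 y * xV1 y +
      xR4 y * xS5 y * xV0 y +
      xR5 y * xS0 y * xV4 y +
      xR5 y * xS1 y * xV3 y +
      xR5 y * xS2 y * xV2 y +
      xR5 y * xS3 y * xV1 y +
      xR5 y * xS4 y * xV0 y +
      xR6 y * xS0 y * xV3 y +
      xR6 y * xS1 y * xV2 y +
      xR6 y * xS2 y * xV1 y +
      xR6 y * xS3 y * xV0 y)
    - (xA0 y * xS3 y * xS6 y +
      xA0 y * xS4 y * xS5 y +
      xA0 y * xS5 y * xS4 y +
      xA0 y * xS6 y * xS3 y +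
      xA1 y * xS2 y * xS6 y +
      xA1 y * xS3 y * xS5 y +
      xA1 y * xS4 y * xS4 y +
      xA1 y * xS5 y * xS3 y +
      xA1 y * xS6 y * xS2 y +
      xA2 y * xS1 y * xS6 y +
      xA2 y * xS2 y * xS5 y +
      xA2 y * xS3 y * xS4 y +
      xA2 y * xS4 y * xS3 y +
      xA2 y * xS5 y * xS2 y +
      xA2 y * xS6 y * xS1 y +
      xA3 y * xS0 y * xS6 y +
      xA3 y * xS1 y * xS5 y +
      xA3 y * xS2 y * xS4 y +
      xA3 y * xS3 y * xS3 y +
      xA3 y * xS4 y * xS2 y +
      xA3 y * xS5 y * xS1 y +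
      xA3 y * xS6 y * xS0 y +
      xA4 y * xS0 y * xS5 y +
      xA4 y * xS1 y * xS4 y +
      xA4 y * xS2 y * xS3 y +
      xA4 y * xS3 y * xS2 y +
      xA4 y * xS4 y * xS1 y +
      xA4 y * xS5 y * xS0 y +
      xA5 y * xS0 y * xS4 y +
      xA5 y * xS1 y * xS3 y +
      xA5 y * xS2 y * xS2 y +
      xA5 y * xS3 y * xS1 y +
      xA5 y * xS4 y * xS0 y +
      xA6 y * xS0 y * xS3 y +
      xA6 y * xS1 y * xS2 y +
      xA6 y * xS2 y * xS1 y +
      xA6 y * xS3 y * xS0 y)
    - (xB0 y * xR3 y * xR6 y +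
      xB0 y * xR4 y * xR5 y +
      xB0 y * xR5 y * xR4 y +
      xB0 y * xR6 y * xR3 y +
      xB1 y * xR2 y * xR6 y +
      xB1 y * xR3 y * xR5 y +
      xB1 y * xR4 y * xR4 y +
      xB1 y * xR5 y * xR3 y +
      xB1 y * xR6 y * xR2 y +
      xB2 y * xR1 y * xR6 y +
      xB2 y * xR2 y * xR5 y +
      xB2 y * xR3 y * xR4 y +
      xB2 y * xR4 y * xR3 y +
      xB2 y * xR5 y * xR2 y +
      xB2 y * xR6 y * xR1 y +
      xB3 y * xR0 y * xR6 y +
      xB3 y * xR1 y * xR5 y +
      xB3 y * xR2 y * xR4 y +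
      xB3 y * xR3 y * xR3 y +
      xB3 y * xR4 y * xR2 y +
      xB3 y * xR5 y * xR1 y +
      xB3 y * xR6 y * xR0 y +
      xB4 y * xR0 y * xR5 y +
      xB4 y * xR1 y * xR4 y +
      xB4 y * xR2 y * xR3 y +
      xB4 y * xR3 y * xR2 y +
      xB4 y * xR4 y * xR1 y +
      xB4 y * xR5 y * xR0 y +
      xB5 y * xR0 y * xR4 y +
      xB5 y * xR1 y * xR3 y +
      xB5 y * xR2 y * xR2 y +
      xB5 y * xR3 y * xR1 y +
      xB5 y * xR4 y * xR0 y +
      xB6 y * xR0 y * xR3 y +
      xB6 y * xR1 y * xR2 y +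
      xB6 y * xR2 y * xR1 y +
      xB6 y * xR3 y * xR0 y)
    - (xV0 y * xV3 y * xM6 y +
      xV0 y * xV4 y * xM5 y +
      xV0 y * xV5 y * xM4 y +
      xV0 y * xV6 y * xM3 y +
      xV1 y * xV2 y * xM6 y +
      xV1 y * xV3 y * xM5 y +
      xV1 y * xV4 y * xM4 y +
      xV1 y * xV5 y * xM3 y +
      xV1 y * xV6 y * xM2 y +
      xV2 y * xV1 y * xM6 y +
      xV2 y * xV2 y * xM5 y +
      xV2 y * xV3 y * xM4 y +
      xV2 y * xV4 y * xM3 y +
      xV2 y * xV5 y * xM2 y +
      xV2 y * xV6 y * xM1 y +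
      xV3 y * xV0 y * xM6 y +
      xV3 y * xV1 y * xM5 y +
      xV3 y * xV2 y * xM4 y +
      xV3 y * xV3 y * xM3 y +
      xV3 y * xV4 y * xM2 y +
      xV3 y * xV5 y * xM1 y +
      xV3 y * xV6 y * xM0 y +
      xV4 y * xV0 y * xM5 y +
      xV4 y * xV1 y * xM4 y +
      xV4 y * xV2 y * xM3 y +
      xV4 y * xV3 y * xM2 y +
      xV4 y * xV4 y * xM1 y +
      xV4 y * xV5 y * xM0 y +
      xV5 y * xV0 y * xM4 y +
      xV5 y * xV1 y * xM3 y +
      xV5 y * xV2 y * xM2 y +
      xV5 y * xV3 y * xM1 y +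
      xV5 y * xV4 y * xM0 y +
      xV6 y * xV0 y * xM3 y +
      xV6 y * xV1 y * xM2 y +
      xV6 y * xV2 y * xM1 y +
      xV6 y * xV3 y * xM0 y) = det9 y := by
  simp only [det9, xA0, xA1, xA2, xA3, xA4, xA5, xA6, xB0, xB1,
    xB2, xB3, xB4, xB5, xB6, xM0, xM1, xM2, xM3,
    xM4, xM5, xM6, xR0, xR1, xR2, xR3, xR4, xR5,
    xR6, xS0, xS1, xS2, xS3, xS4, xS5, xS6, xV0,
    xV1, xV2, xV3, xV4, xV5, xV6]
  ring

theorem det9_nonneg {y : ℝ} (hy : 0 ≤ y) : 0 ≤ det9 y := by
  unfold det9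
  positivity

/-- A coefficient of the determinant. -/
def det10 (y : ℝ) : ℝ :=
    15121618584065569581564645357883271188026086446092096
    + 28709977942035932386759609846177325774430918429505920 * y
    + 26005760440986282508080745774959550568865361093861632 * y ^ 2
    + 14964630660984988932269962533271096370670431137604736 * y ^ 3
    + 6144344994768293161879427874227560294215696660418752 * y ^ 4
    + 1916495295483644783953873086750598138676642239387392 * y ^ 5
    + 472003269275918928591044630488836223570063876955136 * y ^ 6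
    + 94175343377280327383680620042006116236058642365440 * y ^ 7
    + 15495300379576269196662303759022098964741174293504 * y ^ 8
    + 2128907881934195336403467466614827002897737170944 * y ^ 9
    + 246366145349203078805452676652257537951667585024 * y ^ 10
    + 24153003511274397606808367462511553880188649472 * y ^ 11
    + 2012658809805049984631281494360253226332422144 * y ^ 12
    + 142718579725262030384020527244433623053631488 * y ^ 13
    + 8604006494970093221979750757039190866132992 * y ^ 14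
    + 439633362408893160859183976609860161110016 * y ^ 15
    + 18934685344578092655943161909118140678144 * y ^ 16
    + 681619785381020970363619243368118222848 * y ^ 17
    + 20260021633058443199963671195388215296 * y ^ 18
    + 488615260459097384557669085507223552 * y ^ 19 + 9322220638629980351560055072489472 * y ^ 20
    + 135418686843631078136518155436032 * y ^ 21 + 1407418242409003480148380483584 * y ^ 22
    + 9322197968997609543196213248 * y ^ 23 + 29570927236735936952795136 * y ^ 24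

theorem det10_eq (y : ℝ) :
    (xA0 y * xM4 y * xB6 y +
      xA0 y * xM5 y * xB5 y +
      xA0 y * xM6 y * xB4 y +
      xA1 y * xM3 y * xB6 y +
      xA1 y * xM4 y * xB5 y +
      xA1 y * xM5 y * xB4 y +
      xA1 y * xM6 y * xB3 y +
      xA2 y * xM2 y * xB6 y +
      xA2 y * xM3 y * xB5 y +
      xA2 y * xM4 y * xB4 y +
      xA2 y * xM5 y * xB3 y +
      xA2 y * xM6 y * xB2 y +
      xA3 y * xM1 y * xB6 y +
      xA3 y * xM2 y * xB5 y +
      xA3 y * xM3 y * xB4 y +
      xA3 y * xM4 y * xB3 y +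
      xA3 y * xM5 y * xB2 y +
      xA3 y * xM6 y * xB1 y +
      xA4 y * xM0 y * xB6 y +
      xA4 y * xM1 y * xB5 y +
      xA4 y * xM2 y * xB4 y +
      xA4 y * xM3 y * xB3 y +
      xA4 y * xM4 y * xB2 y +
      xA4 y * xM5 y * xB1 y +
      xA4 y * xM6 y * xB0 y +
      xA5 y * xM0 y * xB5 y +
      xA5 y * xM1 y * xB4 y +
      xA5 y * xM2 y * xB3 y +
      xA5 y * xM3 y * xB2 y +
      xA5 y * xM4 y * xB1 y +
      xA5 y * xM5 y * xB0 y +
      xA6 y * xM0 y * xB4 y +
      xA6 y * xM1 y * xB3 y +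
      xA6 y * xM2 y * xB2 y +
      xA6 y * xM3 y * xB1 y +
      xA6 y * xM4 y * xB0 y)
    + 2 * (xR0 y * xS4 y * xV6 y +
      xR0 y * xS5 y * xV5 y +
      xR0 y * xS6 y * xV4 y +
      xR1 y * xS3 y * xV6 y +
      xR1 y * xS4 y * xV5 y +
      xR1 y * xS5 y * xV4 y +
      xR1 y * xS6 y * xV3 y +
      xR2 y * xS2 y * xV6 y +
      xR2 y * xS3 y * xV5 y +
      xR2 y * xS4 y * xV4 y +
      xR2 y * xS5 y * xV3 y +
      xR2 y * xS6 y * xV2 y +
      xR3 y * xS1 y * xV6 y +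
      xR3 y * xS2 y * xV5 y +
      xR3 y * xS3 y * xV4 y +
      xR3 y * xS4 y * xV3 y +
      xR3 y * xS5 y * xV2 y +
      xR3 y * xS6 y * xV1 y +
      xR4 y * xS0 y * xV6 y +
      xR4 y * xS1 y * xV5 y +
      xR4 y * xS2 y * xV4 y +
      xR4 y * xS3 y * xV3 y +
      xR4 y * xS4 y * xV2 y +
      xR4 y * xS5 y * xV1 y +
      xR4 y * xS6 y * xV0 y +
      xR5 y * xS0 y * xV5 y +
      xR5 y * xS1 y * xV4 y +
      xR5 y * xS2 y * xV3 y +
      xR5 y * xS3 y * xV2 y +
      xR5 y * xS4 y * xV1 y +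
      xR5 y * xS5 y * xV0 y +
      xR6 y * xS0 y * xV4 y +
      xR6 y * xS1 y * xV3 y +
      xR6 y * xS2 y * xV2 y +
      xR6 y * xS3 y * xV1 y +
      xR6 y * xS4 y * xV0 y)
    - (xA0 y * xS4 y * xS6 y +
      xA0 y * xS5 y * xS5 y +
      xA0 y * xS6 y * xS4 y +
      xA1 y * xS3 y * xS6 y +
      xA1 y * xS4 y * xS5 y +
      xA1 y * xS5 y * xS4 y +
      xA1 y * xS6 y * xS3 y +
      xA2 y * xS2 y * xS6 y +
      xA2 y * xS3 y * xS5 y +
      xA2 y * xS4 y * xS4 y +
      xA2 y * xS5 y * xS3 y +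
      xA2 y * xS6 y * xS2 y +
      xA3 y * xS1 y * xS6 y +
      xA3 y * xS2 y * xS5 y +
      xA3 y * xS3 y * xS4 y +
      xA3 y * xS4 y * xS3 y +
      xA3 y * xS5 y * xS2 y +
      xA3 y * xS6 y * xS1 y +
      xA4 y * xS0 y * xS6 y +
      xA4 y * xS1 y * xS5 y +
      xA4 y * xS2 y * xS4 y +
      xA4 y * xS3 y * xS3 y +
      xA4 y * xS4 y * xS2 y +
      xA4 y * xS5 y * xS1 y +
      xA4 y * xS6 y * xS0 y +
      xA5 y * xS0 y * xS5 y +
      xA5 y * xS1 y * xS4 y +
      xA5 y * xS2 y * xS3 y +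
      xA5 y * xS3 y * xS2 y +
      xA5 y * xS4 y * xS1 y +
      xA5 y * xS5 y * xS0 y +
      xA6 y * xS0 y * xS4 y +
      xA6 y * xS1 y * xS3 y +
      xA6 y * xS2 y * xS2 y +
      xA6 y * xS3 y * xS1 y +
      xA6 y * xS4 y * xS0 y)
    - (xB0 y * xR4 y * xR6 y +
      xB0 y * xR5 y * xR5 y +
      xB0 y * xR6 y * xR4 y +
      xB1 y * xR3 y * xR6 y +
      xB1 y * xR4 y * xR5 y +
      xB1 y * xR5 y * xR4 y +
      xB1 y * xR6 y * xR3 y +
      xB2 y * xR2 y * xR6 y +
      xB2 y * xR3 y * xR5 y +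
      xB2 y * xR4 y * xR4 y +
      xB2 y * xR5 y * xR3 y +
      xB2 y * xR6 y * xR2 y +
      xB3 y * xR1 y * xR6 y +
      xB3 y * xR2 y * xR5 y +
      xB3 y * xR3 y * xR4 y +
      xB3 y * xR4 y * xR3 y +
      xB3 y * xR5 y * xR2 y +
      xB3 y * xR6 y * xR1 y +
      xB4 y * xR0 y * xR6 y +
      xB4 y * xR1 y * xR5 y +
      xB4 y * xR2 y * xR4 y +
      xB4 y * xR3 y * xR3 y +
      xB4 y * xR4 y * xR2 y +
      xB4 y * xR5 y * xR1 y +
      xB4 y * xR6 y * xR0 y +
      xB5 y * xR0 y * xR5 y +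
      xB5 y * xR1 y * xR4 y +
      xB5 y * xR2 y * xR3 y +
      xB5 y * xR3 y * xR2 y +
      xB5 y * xR4 y * xR1 y +
      xB5 y * xR5 y * xR0 y +
      xB6 y * xR0 y * xR4 y +
      xB6 y * xR1 y * xR3 y +
      xB6 y * xR2 y * xR2 y +
      xB6 y * xR3 y * xR1 y +
      xB6 y * xR4 y * xR0 y)
    - (xV0 y * xV4 y * xM6 y +
      xV0 y * xV5 y * xM5 y +
      xV0 y * xV6 y * xM4 y +
      xV1 y * xV3 y * xM6 y +
      xV1 y * xV4 y * xM5 y +
      xV1 y * xV5 y * xM4 y +
      xV1 y * xV6 y * xM3 y +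
      xV2 y * xV2 y * xM6 y +
      xV2 y * xV3 y * xM5 y +
      xV2 y * xV4 y * xM4 y +
      xV2 y * xV5 y * xM3 y +
      xV2 y * xV6 y * xM2 y +
      xV3 y * xV1 y * xM6 y +
      xV3 y * xV2 y * xM5 y +
      xV3 y * xV3 y * xM4 y +
      xV3 y * xV4 y * xM3 y +
      xV3 y * xV5 y * xM2 y +
      xV3 y * xV6 y * xM1 y +
      xV4 y * xV0 y * xM6 y +
      xV4 y * xV1 y * xM5 y +
      xV4 y * xV2 y * xM4 y +
      xV4 y * xV3 y * xM3 y +
      xV4 y * xV4 y * xM2 y +
      xV4 y * xV5 y * xM1 y +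
      xV4 y * xV6 y * xM0 y +
      xV5 y * xV0 y * xM5 y +
      xV5 y * xV1 y * xM4 y +
      xV5 y * xV2 y * xM3 y +
      xV5 y * xV3 y * xM2 y +
      xV5 y * xV4 y * xM1 y +
      xV5 y * xV5 y * xM0 y +
      xV6 y * xV0 y * xM4 y +
      xV6 y * xV1 y * xM3 y +
      xV6 y * xV2 y * xM2 y +
      xV6 y * xV3 y * xM1 y +
      xV6 y * xV4 y * xM0 y) = det10 y := by
  simp only [det10, xA0, xA1, xA2, xA3, xA4, xA5, xA6, xB0, xB1,
    xB2, xB3, xB4, xB5, xB6, xM0, xM1, xM2, xM3,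
    xM4, xM5, xM6, xR0, xR1, xR2, xR3, xR4, xR5,
    xR6, xS0, xS1, xS2, xS3, xS4, xS5, xS6, xV0,
    xV1, xV2, xV3, xV4, xV5, xV6]
  ring

theorem det10_nonneg {y : ℝ} (hy : 0 ≤ y) : 0 ≤ det10 y := by
  unfold det10
  positivity

end Vale.Agent.P100.Far
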