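import Vale.Agent.P100.Far.DetHigh
import Vale.Agent.P100.Far.DetLow
import Vale.Agent.P100.Far.DetMid
import Vale.Agent.P100.Far.DetTop
import Vale.Agent.P100.Far.DetUpper

/-!
# P100: the determinant of the quartic block is positive
-/

namespace Vale.Agent.P100.Far

theorem det_pos {x y : ℝ} (hx : 0 ≤ x) (hy : 0 ≤ y) :
    0 < eA (x + 6) (y + 27 / 2) * eM (x + 6) (y + 27 / 2) * eB (x + 6) (y + 27 / 2) + 2 * eR (x + 6) (y + 27 / 2) * eS (x + 6) (y + 27 / 2) * eV (x + 6) (y + 27 / 2) -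
      eA (x + 6) (y + 27 / 2) * eS (x + 6) (y + 27 / 2) ^ 2 - eB (x + 6) (y + 27 / 2) * eR (x + 6) (y + 27 / 2) ^ 2 - eV (x + 6) (y + 27 / 2) ^ 2 * eM (x + 6) (y + 27 / 2) := by
  refine pos_of_mul_pos_right ?_ (show (0 : ℝ) ≤ detScale ^ 3 by unfold detScale; norm_num)
  have e : detScale ^ 3 * (eA (x + 6) (y + 27 / 2) * eM (x + 6) (y + 27 / 2) * eB (x + 6) (y + 27 / 2) + 2 * eR (x + 6) (y + 27 / 2) * eS (x + 6) (y + 27 / 2) * eV (x + 6) (y + 27 / 2) -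
      eA (x + 6) (y + 27 / 2) * eS (x + 6) (y + 27 / 2) ^ 2 - eB (x + 6) (y + 27 / 2) * eR (x + 6) (y + 27 / 2) ^ 2 - eV (x + 6) (y + 27 / 2) ^ 2 * eM (x + 6) (y + 27 / 2)) =
      det0 y +
      det1 y * x ^ 1 +
      det2 y * x ^ 2 +
      det3 y * x ^ 3 +
      det4 y * x ^ 4 +
      det5 y * x ^ 5 +
      det6 y * x ^ 6 +
      det7 y * x ^ 7 +
      det8 y * x ^ 8 +
      det9 y * x ^ 9 +
      det10 y * x ^ 10 +
      det11 y * x ^ 11 +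
      det12 y * x ^ 12 +
      det13 y * x ^ 13 +
      det14 y * x ^ 14 +
      det15 y * x ^ 15 +
      det16 y * x ^ 16 +
      det17 y * x ^ 17 +
      det18 y * x ^ 18 := by
    have e0 : detScale ^ 3 * (eA (x + 6) (y + 27 / 2) * eM (x + 6) (y + 27 / 2) * eB (x + 6) (y + 27 / 2) + 2 * eR (x + 6) (y + 27 / 2) * eS (x + 6) (y + 27 / 2) * eV (x + 6) (y + 27 / 2) -
      eA (x + 6) (y + 27 / 2) * eS (x + 6) (y + 27 / 2) ^ 2 - eB (x + 6) (y + 27 / 2) * eR (x + 6) (y + 27 / 2) ^ 2 - eV (x + 6) (y + 27 / 2) ^ 2 * eM (x + 6) (y + 27 / 2)) =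
      (xA0 y + xA1 y * x ^ 1 + xA2 y * x ^ 2 + xA3 y * x ^ 3 +
      xA4 y * x ^ 4 + xA5 y * x ^ 5 + xA6 y * x ^ 6) * (xM0 y + xM1 y * x ^ 1 + xM2 y * x ^ 2 + xM3 y * x ^ 3 +
      xM4 y * x ^ 4 + xM5 y * x ^ 5 + xM6 y * x ^ 6) * (xB0 y + xB1 y * x ^ 1 + xB2 y * x ^ 2 + xB3 y * x ^ 3 +
      xB4 y * x ^ 4 + xB5 y * x ^ 5 + xB6 y * x ^ 6) + 2 * (xR0 y + xR1 y * x ^ 1 + xR2 y * x ^ 2 + xR3 y * x ^ 3 +
      xR4 y * x ^ 4 + xR5 y * x ^ 5 + xR6 y * x ^ 6) * (xS0 y + xS1 y * x ^ 1 + xS2 y * x ^ 2 + xS3 y * x ^ 3 +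
      xS4 y * x ^ 4 + xS5 y * x ^ 5 + xS6 y * x ^ 6) * (xV0 y + xV1 y * x ^ 1 + xV2 y * x ^ 2 + xV3 y * x ^ 3 +
      xV4 y * x ^ 4 + xV5 y * x ^ 5 + xV6 y * x ^ 6) -
      (xA0 y + xA1 y * x ^ 1 + xA2 y * x ^ 2 + xA3 y * x ^ 3 +
      xA4 y * x ^ 4 + xA5 y * x ^ 5 + xA6 y * x ^ 6) * (xS0 y + xS1 y * x ^ 1 + xS2 y * x ^ 2 + xS3 y * x ^ 3 +
      xS4 y * x ^ 4 + xS5 y * x ^ 5 + xS6 y * x ^ 6) ^ 2 - (xB0 y + xB1 y * x ^ 1 + xB2 y * x ^ 2 + xB3 y * x ^ 3 +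
      xB4 y * x ^ 4 + xB5 y * x ^ 5 + xB6 y * x ^ 6) * (xR0 y + xR1 y * x ^ 1 + xR2 y * x ^ 2 + xR3 y * x ^ 3 +
      xR4 y * x ^ 4 + xR5 y * x ^ 5 + xR6 y * x ^ 6) ^ 2 - (xV0 y + xV1 y * x ^ 1 + xV2 y * x ^ 2 + xV3 y * x ^ 3 +
      xV4 y * x ^ 4 + xV5 y * x ^ 5 + xV6 y * x ^ 6) ^ 2 * (xM0 y + xM1 y * x ^ 1 + xM2 y * x ^ 2 + xM3 y * x ^ 3 +
      xM4 y * x ^ 4 + xM5 y * x ^ 5 + xM6 y * x ^ 6) := by
      simp only [← eA_exp x y, ← eB_exp x y, ← eR_exp x y, ← eS_exp x y, ← eV_exp x y,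
        ← eM_exp x y]
      ring
    rw [e0, ← det0_eq, ← det1_eq, ← det2_eq, ← det3_eq, ← det4_eq, ← det5_eq,
      ← det6_eq, ← det7_eq, ← det8_eq, ← det9_eq, ← det10_eq, ← det11_eq,
      ← det12_eq, ← det13_eq, ← det14_eq, ← det15_eq, ← det16_eq, ← det17_eq,
      ← det18_eq]
    ring
  rw [e]
  have h0 : 0 < det0 y := by unfold det0; positivity
  have h1 := mul_nonneg (det1_nonneg hy) (pow_nonneg hx 1)
  have h2 := mul_nonneg (det2_nonneg hy) (pow_nonneg hx 2)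
  have h3 := mul_nonneg (det3_nonneg hy) (pow_nonneg hx 3)
  have h4 := mul_nonneg (det4_nonneg hy) (pow_nonneg hx 4)
  have h5 := mul_nonneg (det5_nonneg hy) (pow_nonneg hx 5)
  have h6 := mul_nonneg (det6_nonneg hy) (pow_nonneg hx 6)
  have h7 := mul_nonneg (det7_nonneg hy) (pow_nonneg hx 7)
  have h8 := mul_nonneg (det8_nonneg hy) (pow_nonneg hx 8)
  have h9 := mul_nonneg (det9_nonneg hy) (pow_nonneg hx 9)
  have h10 := mul_nonneg (det10_nonneg hy) (pow_nonneg hx 10)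
  have h11 := mul_nonneg (det11_nonneg hy) (pow_nonneg hx 11)
  have h12 := mul_nonneg (det12_nonneg hy) (pow_nonneg hx 12)
  have h13 := mul_nonneg (det13_nonneg hy) (pow_nonneg hx 13)
  have h14 := mul_nonneg (det14_nonneg hy) (pow_nonneg hx 14)
  have h15 := mul_nonneg (det15_nonneg hy) (pow_nonneg hx 15)
  have h16 := mul_nonneg (det16_nonneg hy) (pow_nonneg hx 16)
  have h17 := mul_nonneg (det17_nonneg hy) (pow_nonneg hx 17)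
  have h18 := mul_nonneg (det18_nonneg hy) (pow_nonneg hx 18)
  linarith

end Vale.Agent.P100.Far
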