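import Vale.Agent.P100.Far.DetEntries

/-!
# P100: coefficients of the determinant of the quartic block
-/

namespace Vale.Agent.P100.Far

/-- A coefficient of the determinant. -/
def det11 (y : ℝ) : ℝ :=
    2630224197321467811390081139286566030369675648872608
    + 4964502351630972341480474516951140030767849157160064 * y
    + 4473709424634280171426577269264349905062267753198912 * y ^ 2
    + 2562563801489872666485168027046708284913988785104384 * y ^ 3
    + 1047874341276348009697262879731917078238410577326624 * y ^ 4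
    + 325648013048323776045745973599787737057712097273600 * y ^ 5
    + 79937184251864010343758310206734043551669289504512 * y ^ 6
    + 15901537650045484316170648876952990164364604681216 * y ^ 7
    + 2609260529156057928516096242550781012987218405888 * y ^ 8
    + 357596150876323137352772382045128815621508677632 * y ^ 9
    + 41288240262614289977640314827323374772470464512 * y ^ 10
    + 4039303577481422132857122672817545156659970048 * y ^ 11
    + 335944428280920925827437364087355260610953216 * y ^ 12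
    + 23779582398729454207113435306937279873941504 * y ^ 13
    + 1431228415948263803533376021162131901251584 * y ^ 14
    + 73019006942444497066918344375068464250880 * y ^ 15
    + 3140423066214903029384992246476560400384 * y ^ 16
    + 112901718762031887540105915626705387520 * y ^ 17
    + 3351709587865918286547575094810509312 * y ^ 18
    + 80741751216769031288069951091376128 * y ^ 19 + 1538823592820957903721298453856256 * y ^ 20
    + 22331478082224190670476186484736 * y ^ 21 + 231878381986137253971071336448 * y ^ 22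
    + 1534547633125603869229842432 * y ^ 23 + 4863813064136052860518400 * y ^ 24

theorem det11_eq (y : ℝ) :
    (xA0 y * xM5 y * xB6 y +
      xA0 y * xM6 y * xB5 y +
      xA1 y * xM4 y * xB6 y +
      xA1 y * xM5 y * xB5 y +
      xA1 y * xM6 y * xB4 y +
      xA2 y * xM3 y * xB6 y +
      xA2 y * xM4 y * xB5 y +
      xA2 y * xM5 y * xB4 y +
      xA2 y * xM6 y * xB3 y +
      xA3 y * xM2 y * xB6 y +
      xA3 y * xM3 y * xB5 y +
      xA3 y * xM4 y * xB4 y +
      xA3 y * xM5 y * xB3 y +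
      xA3 y * xM6 y * xB2 y +
      xA4 y * xM1 y * xB6 y +
      xA4 y * xM2 y * xB5 y +
      xA4 y * xM3 y * xB4 y +
      xA4 y * xM4 y * xB3 y +
      xA4 y * xM5 y * xB2 y +
      xA4 y * xM6 y * xB1 y +
      xA5 y * xM0 y * xB6 y +
      xA5 y * xM1 y * xB5 y +
      xA5 y * xM2 y * xB4 y +
      xA5 y * xM3 y * xB3 y +
      xA5 y * xM4 y * xB2 y +
      xA5 y * xM5 y * xB1 y +
      xA5 y * xM6 y * xB0 y +
      xA6 y * xM0 y * xB5 y +
      xA6 y * xM1 y * xB4 y +
      xA6 y * xM2 y * xB3 y +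
      xA6 y * xM3 y * xB2 y +
      xA6 y * xM4 y * xB1 y +
      xA6 y * xM5 y * xB0 y)
    + 2 * (xR0 y * xS5 y * xV6 y +
      xR0 y * xS6 y * xV5 y +
      xR1 y * xS4 y * xV6 y +
      xR1 y * xS5 y * xV5 y +
      xR1 y * xS6 y * xV4 y +
      xR2 y * xS3 y * xV6 y +
      xR2 y * xS4 y * xV5 y +
      xR2 y * xS5 y * xV4 y +
      xR2 y * xS6 y * xV3 y +
      xR3 y * xS2 y * xV6 y +
      xR3 y * xS3 y * xV5 y +
      xR3 y * xS4 y * xV4 y +
      xR3 y * xS5 y * xV3 y +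
      xR3 y * xS6 y * xV2 y +
      xR4 y * xS1 y * xV6 y +
      xR4 y * xS2 y * xV5 y +
      xR4 y * xS3 y * xV4 y +
      xR4 y * xS4 y * xV3 y +
      xR4 y * xS5 y * xV2 y +
      xR4 y * xS6 y * xV1 y +
      xR5 y * xS0 y * xV6 y +
      xR5 y * xS1 y * xV5 y +
      xR5 y * xS2 y * xV4 y +
      xR5 y * xS3 y * xV3 y +
      xR5 y * xS4 y * xV2 y +
      xR5 y * xS5 y * xV1 y +
      xR5 y * xS6 y * xV0 y +
      xR6 y * xS0 y * xV5 y +
      xR6 y * xS1 y * xV4 y +
      xR6 y * xS2 y * xV3 y +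
      xR6 y * xS3 y * xV2 y +
      xR6 y * xS4 y * xV1 y +
      xR6 y * xS5 y * xV0 y)
    - (xA0 y * xS5 y * xS6 y +
      xA0 y * xS6 y * xS5 y +
      xA1 y * xS4 y * xS6 y +
      xA1 y * xS5 y * xS5 y +
      xA1 y * xS6 y * xS4 y +
      xA2 y * xS3 y * xS6 y +
      xA2 y * xS4 y * xS5 y +
      xA2 y * xS5 y * xS4 y +
      xA2 y * xS6 y * xS3 y +
      xA3 y * xS2 y * xS6 y +
      xA3 y * xS3 y * xS5 y +
      xA3 y * xS4 y * xS4 y +
      xA3 y * xS5 y * xS3 y +
      xA3 y * xS6 y * xS2 y +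
      xA4 y * xS1 y * xS6 y +
      xA4 y * xS2 y * xS5 y +
      xA4 y * xS3 y * xS4 y +
      xA4 y * xS4 y * xS3 y +
      xA4 y * xS5 y * xS2 y +
      xA4 y * xS6 y * xS1 y +
      xA5 y * xS0 y * xS6 y +
      xA5 y * xS1 y * xS5 y +
      xA5 y * xS2 y * xS4 y +
      xA5 y * xS3 y * xS3 y +
      xA5 y * xS4 y * xS2 y +
      xA5 y * xS5 y * xS1 y +
      xA5 y * xS6 y * xS0 y +
      xA6 y * xS0 y * xS5 y +
      xA6 y * xS1 y * xS4 y +
      xA6 y * xS2 y * xS3 y +
      xA6 y * xS3 y * xS2 y +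
      xA6 y * xS4 y * xS1 y +
      xA6 y * xS5 y * xS0 y)
    - (xB0 y * xR5 y * xR6 y +
      xB0 y * xR6 y * xR5 y +
      xB1 y * xR4 y * xR6 y +
      xB1 y * xR5 y * xR5 y +
      xB1 y * xR6 y * xR4 y +
      xB2 y * xR3 y * xR6 y +
      xB2 y * xR4 y * xR5 y +
      xB2 y * xR5 y * xR4 y +
      xB2 y * xR6 y * xR3 y +
      xB3 y * xR2 y * xR6 y +
      xB3 y * xR3 y * xR5 y +
      xB3 y * xR4 y * xR4 y +
      xB3 y * xR5 y * xR3 y +
      xB3 y * xR6 y * xR2 y +
      xB4 y * xR1 y * xR6 y +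
      xB4 y * xR2 y * xR5 y +
      xB4 y * xR3 y * xR4 y +
      xB4 y * xR4 y * xR3 y +
      xB4 y * xR5 y * xR2 y +
      xB4 y * xR6 y * xR1 y +
      xB5 y * xR0 y * xR6 y +
      xB5 y * xR1 y * xR5 y +
      xB5 y * xR2 y * xR4 y +
      xB5 y * xR3 y * xR3 y +
      xB5 y * xR4 y * xR2 y +
      xB5 y * xR5 y * xR1 y +
      xB5 y * xR6 y * xR0 y +
      xB6 y * xR0 y * xR5 y +
      xB6 y * xR1 y * xR4 y +
      xB6 y * xR2 y * xR3 y +
      xB6 y * xR3 y * xR2 y +
      xB6 y * xR4 y * xR1 y +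
      xB6 y * xR5 y * xR0 y)
    - (xV0 y * xV5 y * xM6 y +
      xV0 y * xV6 y * xM5 y +
      xV1 y * xV4 y * xM6 y +
      xV1 y * xV5 y * xM5 y +
      xV1 y * xV6 y * xM4 y +
      xV2 y * xV3 y * xM6 y +
      xV2 y * xV4 y * xM5 y +
      xV2 y * xV5 y * xM4 y +
      xV2 y * xV6 y * xM3 y +
      xV3 y * xV2 y * xM6 y +
      xV3 y * xV3 y * xM5 y +
      xV3 y * xV4 y * xM4 y +
      xV3 y * xV5 y * xM3 y +
      xV3 y * xV6 y * xM2 y +
      xV4 y * xV1 y * xM6 y +
      xV4 y * xV2 y * xM5 y +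
      xV4 y * xV3 y * xM4 y +
      xV4 y * xV4 y * xM3 y +
      xV4 y * xV5 y * xM2 y +
      xV4 y * xV6 y * xM1 y +
      xV5 y * xV0 y * xM6 y +
      xV5 y * xV1 y * xM5 y +
      xV5 y * xV2 y * xM4 y +
      xV5 y * xV3 y * xM3 y +
      xV5 y * xV4 y * xM2 y +
      xV5 y * xV5 y * xM1 y +
      xV5 y * xV6 y * xM0 y +
      xV6 y * xV0 y * xM5 y +
      xV6 y * xV1 y * xM4 y +
      xV6 y * xV2 y * xM3 y +
      xV6 y * xV3 y * xM2 y +
      xV6 y * xV4 y * xM1 y +
      xV6 y * xV5 y * xM0 y) = det11 y := by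
  simp only [det11, xA0, xA1, xA2, xA3, xA4, xA5, xA6, xB0, xB1,
    xB2, xB3, xB4, xB5, xB6, xM0, xM1, xM2, xM3,
    xM4, xM5, xM6, xR0, xR1, xR2, xR3, xR4, xR5,
    xR6, xS0, xS1, xS2, xS3, xS4, xS5, xS6, xV0,
    xV1, xV2, xV3, xV4, xV5, xV6]
  ring

theorem det11_nonneg {y : ℝ} (hy : 0 ≤ y) : 0 ≤ det11 y := by
  unfold det11
  positivity

/-- A coefficient of the determinant. -/
def det12 (y : ℝ) : ℝ :=
    354379093137808748037103000503423361472346305819072
    + 665643192985755664820026127699401512780401015844480 * y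
    + 597255501743587177927704268318990809323226754501248 * y ^ 2
    + 340794642907804839222185647357577276915000350780608 * y ^ 3
    + 138874478929874001129465302689640177767344006382080 * y ^ 4
    + 43023169784734726850738962881911684220860270042112 * y ^ 5
    + 10530999683587208324641804911522898057824906100736 * y ^ 6
    + 2089472198801510968336521389279465810835961476096 * y ^ 7
    + 342048883083858056133811856200244816098776563712 * y ^ 8
    + 46775895340177850790813063278272713364648624128 * y ^ 9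
    + 5390014842853765216587146577246894964347568128 * y ^ 10
    + 526346900155241070638437912248823565055393792 * y ^ 11
    + 43701439113716926564193684759485440758906880 * y ^ 12
    + 3088516967356325599503108042254812747137024 * y ^ 13
    + 185618712578203652236696278881599764824064 * y ^ 14
    + 9457161709276664389312818753337802883072 * y ^ 15
    + 406224612970772979364277408193312718848 * y ^ 16
    + 14587115750381732878941820664238047232 * y ^ 17
    + 432574193732582174194989362365595648 * y ^ 18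
    + 10409972144344107804139751970177024 * y ^ 19 + 198210575946569975530039271227392 * y ^ 20
    + 2873884345744603186758602981376 * y ^ 21 + 29816126253878923126558949376 * y ^ 22
    + 197166915064053238924836864 * y ^ 23 + 624475286176372524843008 * y ^ 24

theorem det12_eq (y : ℝ) :
    (xA0 y * xM6 y * xB6 y +
      xA1 y * xM5 y * xB6 y +
      xA1 y * xM6 y * xB5 y +
      xA2 y * xM4 y * xB6 y +
      xA2 y * xM5 y * xB5 y +
      xA2 y * xM6 y * xB4 y +
      xA3 y * xM3 y * xB6 y +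
      xA3 y * xM4 y * xB5 y +
      xA3 y * xM5 y * xB4 y +
      xA3 y * xM6 y * xB3 y +
      xA4 y * xM2 y * xB6 y +
      xA4 y * xM3 y * xB5 y +
      xA4 y * xM4 y * xB4 y +
      xA4 y * xM5 y * xB3 y +
      xA4 y * xM6 y * xB2 y +
      xA5 y * xM1 y * xB6 y +
      xA5 y * xM2 y * xB5 y +
      xA5 y * xM3 y * xB4 y +
      xA5 y * xM4 y * xB3 y +
      xA5 y * xM5 y * xB2 y +
      xA5 y * xM6 y * xB1 y +
      xA6 y * xM0 y * xB6 y +
      xA6 y * xM1 y * xB5 y +
      xA6 y * xM2 y * xB4 y +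
      xA6 y * xM3 y * xB3 y +
      xA6 y * xM4 y * xB2 y +
      xA6 y * xM5 y * xB1 y +
      xA6 y * xM6 y * xB0 y)
    + 2 * (xR0 y * xS6 y * xV6 y +
      xR1 y * xS5 y * xV6 y +
      xR1 y * xS6 y * xV5 y +
      xR2 y * xS4 y * xV6 y +
      xR2 y * xS5 y * xV5 y +
      xR2 y * xS6 y * xV4 y +
      xR3 y * xS3 y * xV6 y +
      xR3 y * xS4 y * xV5 y +
      xR3 y * xS5 y * xV4 y +
      xR3 y * xS6 y * xV3 y +
      xR4 y * xS2 y * xV6 y +
      xR4 y * xS3 y * xV5 y +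
      xR4 y * xS4 y * xV4 y +
      xR4 y * xS5 y * xV3 y +
      xR4 y * xS6 y * xV2 y +
      xR5 y * xS1 y * xV6 y +
      xR5 y * xS2 y * xV5 y +
      xR5 y * xS3 y * xV4 y +
      xR5 y * xS4 y * xV3 y +
      xR5 y * xS5 y * xV2 y +
      xR5 y * xS6 y * xV1 y +
      xR6 y * xS0 y * xV6 y +
      xR6 y * xS1 y * xV5 y +
      xR6 y * xS2 y * xV4 y +
      xR6 y * xS3 y * xV3 y +
      xR6 y * xS4 y * xV2 y +
      xR6 y * xS5 y * xV1 y +
      xR6 y * xS6 y * xV0 y)
    - (xA0 y * xS6 y * xS6 y +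
      xA1 y * xS5 y * xS6 y +
      xA1 y * xS6 y * xS5 y +
      xA2 y * xS4 y * xS6 y +
      xA2 y * xS5 y * xS5 y +
      xA2 y * xS6 y * xS4 y +
      xA3 y * xS3 y * xS6 y +
      xA3 y * xS4 y * xS5 y +
      xA3 y * xS5 y * xS4 y +
      xA3 y * xS6 y * xS3 y +
      xA4 y * xS2 y * xS6 y +
      xA4 y * xS3 y * xS5 y +
      xA4 y * xS4 y * xS4 y +
      xA4 y * xS5 y * xS3 y +
      xA4 y * xS6 y * xS2 y +
      xA5 y * xS1 y * xS6 y +
      xA5 y * xS2 y * xS5 y +
      xA5 y * xS3 y * xS4 y +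
      xA5 y * xS4 y * xS3 y +
      xA5 y * xS5 y * xS2 y +
      xA5 y * xS6 y * xS1 y +
      xA6 y * xS0 y * xS6 y +
      xA6 y * xS1 y * xS5 y +
      xA6 y * xS2 y * xS4 y +
      xA6 y * xS3 y * xS3 y +
      xA6 y * xS4 y * xS2 y +
      xA6 y * xS5 y * xS1 y +
      xA6 y * xS6 y * xS0 y)
    - (xB0 y * xR6 y * xR6 y +
      xB1 y * xR5 y * xR6 y +
      xB1 y * xR6 y * xR5 y +
      xB2 y * xR4 y * xR6 y +
      xB2 y * xR5 y * xR5 y +
      xB2 y * xR6 y * xR4 y +
      xB3 y * xR3 y * xR6 y +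
      xB3 y * xR4 y * xR5 y +
      xB3 y * xR5 y * xR4 y +
      xB3 y * xR6 y * xR3 y +
      xB4 y * xR2 y * xR6 y +
      xB4 y * xR3 y * xR5 y +
      xB4 y * xR4 y * xR4 y +
      xB4 y * xR5 y * xR3 y +
      xB4 y * xR6 y * xR2 y +
      xB5 y * xR1 y * xR6 y +
      xB5 y * xR2 y * xR5 y +
      xB5 y * xR3 y * xR4 y +
      xB5 y * xR4 y * xR3 y +
      xB5 y * xR5 y * xR2 y +
      xB5 y * xR6 y * xR1 y +
      xB6 y * xR0 y * xR6 y +
      xB6 y * xR1 y * xR5 y +
      xB6 y * xR2 y * xR4 y +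
      xB6 y * xR3 y * xR3 y +
      xB6 y * xR4 y * xR2 y +
      xB6 y * xR5 y * xR1 y +
      xB6 y * xR6 y * xR0 y)
    - (xV0 y * xV6 y * xM6 y +
      xV1 y * xV5 y * xM6 y +
      xV1 y * xV6 y * xM5 y +
      xV2 y * xV4 y * xM6 y +
      xV2 y * xV5 y * xM5 y +
      xV2 y * xV6 y * xM4 y +
      xV3 y * xV3 y * xM6 y +
      xV3 y * xV4 y * xM5 y +
      xV3 y * xV5 y * xM4 y +
      xV3 y * xV6 y * xM3 y +
      xV4 y * xV2 y * xM6 y +
      xV4 y * xV3 y * xM5 y +
      xV4 y * xV4 y * xM4 y +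
      xV4 y * xV5 y * xM3 y +
      xV4 y * xV6 y * xM2 y +
      xV5 y * xV1 y * xM6 y +
      xV5 y * xV2 y * xM5 y +
      xV5 y * xV3 y * xM4 y +
      xV5 y * xV4 y * xM3 y +
      xV5 y * xV5 y * xM2 y +
      xV5 y * xV6 y * xM1 y +
      xV6 y * xV0 y * xM6 y +
      xV6 y * xV1 y * xM5 y +
      xV6 y * xV2 y * xM4 y +
      xV6 y * xV3 y * xM3 y +
      xV6 y * xV4 y * xM2 y +
      xV6 y * xV5 y * xM1 y +
      xV6 y * xV6 y * xM0 y) = det12 y := by
  simp only [det12, xA0, xA1, xA2, xA3, xA4, xA5, xA6, xB0, xB1,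
    xB2, xB3, xB4, xB5, xB6, xM0, xM1, xM2, xM3,
    xM4, xM5, xM6, xR0, xR1, xR2, xR3, xR4, xR5,
    xR6, xS0, xS1, xS2, xS3, xS4, xS5, xS6, xV0,
    xV1, xV2, xV3, xV4, xV5, xV6]
  ring

theorem det12_nonneg {y : ℝ} (hy : 0 ≤ y) : 0 ≤ det12 y := by
  unfold det12
  positivity

end Vale.Agent.P100.Far
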