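import Vale.Agent.P100.Far.Defs

/-!
# P100: positivity of one polynomial of the certificate
-/

namespace Vale.Agent.P100.Far

open Wide (sideNum)
open Thin (pK pE)

/-- A coefficient of a positive expansion. -/
noncomputable def pOne_pos_c0 (y : ℝ) : ℝ :=
  (1782765217 / 120) + (87518991 / 20) * y + (14529803 / 30) * y ^ 2 + (119361 / 5) * y ^ 3 +
  (6632 / 15) * y ^ 4

theorem pOne_pos_c0_pos {y : ℝ} (hy : 0 ≤ y) : 0 < pOne_pos_c0 y := by
  unfold pOne_pos_c0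
  positivity

/-- A coefficient of a positive expansion. -/
noncomputable def pOne_pos_c1 (y : ℝ) : ℝ :=
  (1385713777 / 120) + (272112389 / 80) * y + (45175367 / 120) * y ^ 2 + (371099 / 20) * y ^ 3 +
  (10309 / 30) * y ^ 4

theorem pOne_pos_c1_pos {y : ℝ} (hy : 0 ≤ y) : 0 < pOne_pos_c1 y := by
  unfold pOne_pos_c1
  positivity

/-- A coefficient of a positive expansion. -/
noncomputable def pOne_pos_c2 (y : ℝ) : ℝ :=
  (312645757 / 96) + (30698933 / 32) * y + (5096683 / 48) * y ^ 2 + (41867 / 8) * y ^ 3 +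
  (1163 / 12) * y ^ 4

theorem pOne_pos_c2_pos {y : ℝ} (hy : 0 ≤ y) : 0 < pOne_pos_c2 y := by
  unfold pOne_pos_c2
  positivity

/-- A coefficient of a positive expansion. -/
noncomputable def pOne_pos_c3 (y : ℝ) : ℝ :=
  (18813911 / 48) + (230949 / 2) * y + (76691 / 6) * y ^ 2 + 630 * y ^ 3 + (35 / 3) * y ^ 4

theorem pOne_pos_c3_pos {y : ℝ} (hy : 0 ≤ y) : 0 < pOne_pos_c3 y := by
  unfold pOne_pos_c3
  positivity

/-- A coefficient of a positive expansion. -/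
noncomputable def pOne_pos_c4 (y : ℝ) : ℝ :=
  (537289 / 32) + (19791 / 4) * y + (2191 / 4) * y ^ 2 + 27 * y ^ 3 + (1 / 2) * y ^ 4

theorem pOne_pos_c4_pos {y : ℝ} (hy : 0 ≤ y) : 0 < pOne_pos_c4 y := by
  unfold pOne_pos_c4
  positivity

set_option maxHeartbeats 4000000 in
theorem pOne_pos {x y : ℝ} (hx : 0 ≤ x) (hy : 0 ≤ y) :
    0 < -(x + 6 + 2) * pC1 (x + 6) (y + 27 / 2) -
      (pA (x + 6) (y + 27 / 2) - 2 * pW (x + 6) (y + 27 / 2)) := by
  have e : -(x + 6 + 2) * pC1 (x + 6) (y + 27 / 2) -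
      (pA (x + 6) (y + 27 / 2) - 2 * pW (x + 6) (y + 27 / 2)) =
      pOne_pos_c0 y +
      pOne_pos_c1 y * x ^ 1 +
      pOne_pos_c2 y * x ^ 2 +
      pOne_pos_c3 y * x ^ 3 +
      pOne_pos_c4 y * x ^ 4 := by
    simp only [eA, eB, eR, eS, eV, eM, sideNum, pH, pK, pE, pC1, pC2, pC3, pC4, pL1, pL2, pM1,
      pM2, pm2, pT, pT0, pA, pB, pD, pW, pG, pG2, pGd,
      pOne_pos_c0, pOne_pos_c1, pOne_pos_c2, pOne_pos_c3, pOne_pos_c4]
    ring
  rw [e]
  have k0 := pOne_pos_c0_pos hy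
  have k1 := mul_nonneg (pOne_pos_c1_pos hy).le (pow_nonneg hx 1)
  have k2 := mul_nonneg (pOne_pos_c2_pos hy).le (pow_nonneg hx 2)
  have k3 := mul_nonneg (pOne_pos_c3_pos hy).le (pow_nonneg hx 3)
  have k4 := mul_nonneg (pOne_pos_c4_pos hy).le (pow_nonneg hx 4)
  linarith

end Vale.Agent.P100.Far
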