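import Vale.Agent.P100.Far.Defs

/-!
# P100: positivity of one polynomial of the certificate
-/

namespace Vale.Agent.P100.Far

open Wide (sideNum)
open Thin (pK pE)

/-- A coefficient of a positive expansion. -/
noncomputable def pTwo_pos_c0 (y : ℝ) : ℝ :=
  (36459388 / 5) + (10833804 / 5) * y + (1208984 / 5) * y ^ 2 + (60048 / 5) * y ^ 3 + 224 * y ^ 4

theorem pTwo_pos_c0_pos {y : ℝ} (hy : 0 ≤ y) : 0 < pTwo_pos_c0 y := by
  unfold pTwo_pos_c0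
  positivity

/-- A coefficient of a positive expansion. -/
noncomputable def pTwo_pos_c1 (y : ℝ) : ℝ :=
  (139312673 / 20) + (10323126 / 5) * y + (1149246 / 5) * y ^ 2 + (56952 / 5) * y ^ 3 +
  212 * y ^ 4

theorem pTwo_pos_c1_pos {y : ℝ} (hy : 0 ≤ y) : 0 < pTwo_pos_c1 y := by
  unfold pTwo_pos_c1
  positivity

/-- A coefficient of a positive expansion. -/
noncomputable def pTwo_pos_c2 (y : ℝ) : ℝ :=
  (95369371 / 40) + (14104179 / 20) * y + (783517 / 10) * y ^ 2 + (19377 / 5) * y ^ 3 +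
  72 * y ^ 4

theorem pTwo_pos_c2_pos {y : ℝ} (hy : 0 ≤ y) : 0 < pTwo_pos_c2 y := by
  unfold pTwo_pos_c2
  positivity

/-- A coefficient of a positive expansion. -/
noncomputable def pTwo_pos_c3 (y : ℝ) : ℝ :=
  (109377017 / 320) + (504549 / 5) * y + (447657 / 40) * y ^ 2 + (2763 / 5) * y ^ 3 +
  (41 / 4) * y ^ 4

theorem pTwo_pos_c3_pos {y : ℝ} (hy : 0 ≤ y) : 0 < pTwo_pos_c3 y := by
  unfold pTwo_pos_c3
  positivity

/-- A coefficient of a positive expansion. -/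
noncomputable def pTwo_pos_c4 (y : ℝ) : ℝ :=
  (537289 / 32) + (19791 / 4) * y + (2191 / 4) * y ^ 2 + 27 * y ^ 3 + (1 / 2) * y ^ 4

theorem pTwo_pos_c4_pos {y : ℝ} (hy : 0 ≤ y) : 0 < pTwo_pos_c4 y := by
  unfold pTwo_pos_c4
  positivity

set_option maxHeartbeats 4000000 in
theorem pTwo_pos {x y : ℝ} (hx : 0 ≤ x) (hy : 0 ≤ y) :
    0 < -(x + 6 + 2) * pC4 (x + 6) (y + 27 / 2) -
      (pB (x + 6) (y + 27 / 2) - 2 * pW (x + 6) (y + 27 / 2)) := by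
  have e : -(x + 6 + 2) * pC4 (x + 6) (y + 27 / 2) -
      (pB (x + 6) (y + 27 / 2) - 2 * pW (x + 6) (y + 27 / 2)) =
      pTwo_pos_c0 y +
      pTwo_pos_c1 y * x ^ 1 +
      pTwo_pos_c2 y * x ^ 2 +
      pTwo_pos_c3 y * x ^ 3 +
      pTwo_pos_c4 y * x ^ 4 := by
    simp only [eA, eB, eR, eS, eV, eM, sideNum, pH, pK, pE, pC1, pC2, pC3, pC4, pL1, pL2, pM1,
      pM2, pm2, pT, pT0, pA, pB, pD, pW, pG, pG2, pGd,
      pTwo_pos_c0, pTwo_pos_c1, pTwo_pos_c2, pTwo_pos_c3, pTwo_pos_c4]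
    ring
  rw [e]
  have k0 := pTwo_pos_c0_pos hy
  have k1 := mul_nonneg (pTwo_pos_c1_pos hy).le (pow_nonneg hx 1)
  have k2 := mul_nonneg (pTwo_pos_c2_pos hy).le (pow_nonneg hx 2)
  have k3 := mul_nonneg (pTwo_pos_c3_pos hy).le (pow_nonneg hx 3)
  have k4 := mul_nonneg (pTwo_pos_c4_pos hy).le (pow_nonneg hx 4)
  linarith

end Vale.Agent.P100.Far
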