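import Vale.Agent.P100.Far.Defs

/-!
# P100: positivity of one polynomial of the certificate
-/

namespace Vale.Agent.P100.Far

open Wide (sideNum)
open Thin (pK pE)

/-- A coefficient of a positive expansion. -/
noncomputable def pT0_pos_c0 (y : ℝ) : ℝ :=
  (10560841 / 80) + (154341 / 4) * y + (21179 / 5) * y ^ 2 + 207 * y ^ 3 + (19 / 5) * y ^ 4

theorem pT0_pos_c0_pos {y : ℝ} (hy : 0 ≤ y) : 0 < pT0_pos_c0 y := by
  unfold pT0_pos_c0
  positivity

/-- A coefficient of a positive expansion. -/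
noncomputable def pT0_pos_c1 (y : ℝ) : ℝ :=
  (1109813 / 32) + (811287 / 80) * y + (44549 / 40) * y ^ 2 + (1089 / 20) * y ^ 3 + 1 * y ^ 4

theorem pT0_pos_c1_pos {y : ℝ} (hy : 0 ≤ y) : 0 < pT0_pos_c1 y := by
  unfold pT0_pos_c1
  positivity

set_option maxHeartbeats 4000000 in
theorem pT0_pos {x y : ℝ} (hx : 0 ≤ x) (hy : 0 ≤ y) :
    0 < pT0 (x + 6) (y + 27 / 2) := by
  have e : pT0 (x + 6) (y + 27 / 2) =
      pT0_pos_c0 y +
      pT0_pos_c1 y * x ^ 1 := by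
    simp only [eA, eB, eR, eS, eV, eM, sideNum, pH, pK, pE, pC1, pC2, pC3, pC4, pL1, pL2, pM1,
      pM2, pm2, pT, pT0, pA, pB, pD, pW, pG, pG2, pGd,
      pT0_pos_c0, pT0_pos_c1]
    ring
  rw [e]
  have k0 := pT0_pos_c0_pos hy
  have k1 := mul_nonneg (pT0_pos_c1_pos hy).le (pow_nonneg hx 1)
  linarith

end Vale.Agent.P100.Far
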