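import Vale.Agent.P100.Thin
import Vale.Agent.P100.Far.A
import Vale.Agent.P100.Far.Cond
import Vale.Agent.P100.Far.Det
import Vale.Agent.P100.Far.Minor
import Vale.Agent.P100.Far.POne
import Vale.Agent.P100.Far.PTwo
import Vale.Agent.P100.Far.SideOne
import Vale.Agent.P100.Far.SideOneInf
import Vale.Agent.P100.Far.SideTwo
import Vale.Agent.P100.Far.SideTwoInf
import Vale.Agent.P100.Far.TPos

/-!
# P100: a certificate for `p + 1 ≥ 27/2 (q + 1)`, `n ≥ 6`, `α + β ≥ n - 2 + 3n / (10 (n + 2))`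
-/

namespace Vale.Agent.P100.Far

open Filter Topology
open Block (sideVal sideVal_eq sideVal_pos form_nonneg wForm_scaled)
open Thin (pK pE lowSum lowSum_eq)

theorem pK_pos {n : ℝ} (hn : 6 ≤ n) : 0 < pK n := Thin.pK_pos (by linarith)

theorem pE_pos {n : ℝ} (hn : 6 ≤ n) : 0 < pE n := Thin.pE_pos (by linarith)

theorem pW_pos {n : ℝ} (hn : 6 ≤ n) (r : ℝ) : 0 < pW n r := by
  unfold pW
  have : 0 < n - 2 := by linarith
  positivity

theorem pGd_pos {n r : ℝ} (hn : 6 ≤ n) (hr : r ≠ 0) : 0 < pGd n r := by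
  unfold pGd
  positivity

theorem weight_bounds {n r : ℝ} (hn : 6 ≤ n) (hr : 27 / 2 ≤ r) :
    (1 - 2 / (n - 2) ≤ pA n r / pW n r ∧ pA n r / pW n r ≤ 1) ∧
      (1 - 2 / (n - 2) ≤ pB n r / pW n r ∧ pB n r / pW n r ≤ 1) := by
  have hW := pW_pos hn r
  have hN : 0 < n - 2 := by linarith
  have hQ : 0 < 1 + r ^ 2 := by positivity
  have e : (1 - 2 / (n - 2)) * pW n r = pW n r - 2 * (1 + r ^ 2) ^ 2 * (n - 2) ^ 2 := by
    simp only [pW]; field_simp
  have hv : 0 ≤ 1 + r ^ 2 - 9 / 10 * r := by nlinarith [sq_nonneg (r - 9 / 20)]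
  have hb : 0 ≤ 1 / 2 * r ^ 2 - 1 / 4 * r := by nlinarith
  refine ⟨⟨?_, ?_⟩, ⟨?_, ?_⟩⟩
  · rw [le_div_iff₀ hW, e, pA]
    have h1 : 0 ≤ ((1 / 2 * r ^ 2 - 1 / 4 * r) * (n - 2) - 2 / 5 * r ^ 2) * (1 + r ^ 2) := by
      refine mul_nonneg ?_ hQ.le
      nlinarith [mul_le_mul_of_nonneg_left (show (4 : ℝ) ≤ n - 2 by linarith) hb]
    nlinarith [h1, mul_nonneg hQ.le (sq_nonneg (n - 2))]
  · rw [div_le_one hW, pA]
    have h1 : (1 / 2 * r ^ 2 - 1 / 4 * r) * (1 + r ^ 2) * (n - 2) ≤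
        r ^ 2 * (1 + r ^ 2) * (n - 2) ^ 2 := by
      rw [sq (n - 2), ← mul_assoc]
      refine mul_le_mul_of_nonneg_right ?_ hN.le
      rw [mul_right_comm (r ^ 2)]
      refine mul_le_mul_of_nonneg_right ?_ hQ.le
      nlinarith [mul_le_mul_of_nonneg_left (show (1 : ℝ) ≤ n - 2 by linarith) (sq_nonneg r)]
    nlinarith [mul_nonneg (mul_nonneg (sq_nonneg r) hQ.le) (sq_nonneg (n - 2)),
      mul_nonneg (sq_nonneg r) hQ.le]
  · rw [le_div_iff₀ hW, e, pB, pD]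
    nlinarith [mul_nonneg (mul_nonneg (sq_nonneg r) hv) (sq_nonneg (n - 2))]
  · rw [div_le_one hW, pB]
    have : pD r ≤ 0 := by
      unfold pD
      nlinarith [mul_le_mul_of_nonneg_left (show 1 + r ^ 2 - 9 / 10 * r ≤ 1 + r ^ 2 by linarith)
        (sq_nonneg r), mul_nonneg hQ.le hQ.le]
    nlinarith [mul_nonpos_of_nonpos_of_nonneg this (sq_nonneg (n - 2))]

theorem side_one {n y p : ℝ} (hn : 6 ≤ n) (hy : 0 ≤ y) (hp1 : y + 27 / 2 ≤ p)
    (hp2 : p ≤ y + 27 / 2 + 2 * (1 + (y + 27 / 2)) / lowSum n) :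
    0 < sideVal n (pA n (y + 27 / 2) / pW n (y + 27 / 2)) (pB n (y + 27 / 2) / pW n (y + 27 / 2))
      (pC1 n (y + 27 / 2) / pW n (y + 27 / 2)) (pC2 n (y + 27 / 2) / pW n (y + 27 / 2))
      (pC3 n (y + 27 / 2) / pW n (y + 27 / 2)) (pG n (y + 27 / 2) / pGd n (y + 27 / 2)) p := by
  obtain ⟨x, hx, rfl⟩ : ∃ x, 0 ≤ x ∧ n = x + 6 := ⟨n - 6, by linarith, by ring⟩
  have hn0 : (0 : ℝ) < x + 6 := by linarith
  have hW := (pW_pos hn (y + 27 / 2)).ne'
  have hG := (pGd_pos hn (show y + 27 / 2 ≠ 0 by linarith)).ne'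
  have hK := (pK_pos hn).ne'
  have hE := (pE_pos hn).ne'
  refine sideVal_pos ?_ ?_ hp1 hp2
  · have := sideVal_eq (C₁ := pC1 (x + 6) (y + 27 / 2)) (C₂ := pC2 (x + 6) (y + 27 / 2))
      (C₃ := pC3 (x + 6) (y + 27 / 2)) (PA := pA (x + 6) (y + 27 / 2)) (PB := pB (x + 6) (y + 27 / 2))
      (G := pG (x + 6) (y + 27 / 2)) (Pn := y + 27 / 2) (L := 1) hn0.ne' hW hG one_ne_zero
    rw [div_one] at this
    rw [this]
    have := sideOne_left hx hy
    positivity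
  · have e : y + 27 / 2 + 2 * (1 + (y + 27 / 2)) / lowSum (x + 6) =
        ((y + 27 / 2) * pK (x + 6) + 2 * (1 + (y + 27 / 2)) * pE (x + 6)) / pK (x + 6) := by
      rw [lowSum_eq (by linarith)]; field_simp
    rw [e, sideVal_eq hn0.ne' hW hG hK]
    have := sideOne_right hx hy
    positivity

theorem gd_sub {n r : ℝ} (hn : 6 ≤ n) (hr : r ≠ 0) :
    2 / n - pG n r / pGd n r = pH n r / pGd n r := by
  have : n ≠ 0 := by linarith
  have : n + 2 ≠ 0 := by linarith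
  have : 1 + r ^ 2 ≠ 0 := by positivity
  rw [pH, sub_div]
  congr 1
  rw [pGd]
  field_simp
  ring

theorem side_two {n y q : ℝ} (hn : 6 ≤ n) (hy : 0 ≤ y) (hq1 : (y + 27 / 2)⁻¹ ≤ q)
    (hq2 : q ≤ (y + 27 / 2)⁻¹ + 2 * (1 + (y + 27 / 2)⁻¹) / lowSum n) :
    0 < sideVal n (pB n (y + 27 / 2) / pW n (y + 27 / 2)) (pA n (y + 27 / 2) / pW n (y + 27 / 2))
      (pC4 n (y + 27 / 2) / pW n (y + 27 / 2)) (pC3 n (y + 27 / 2) / pW n (y + 27 / 2))
      (pC2 n (y + 27 / 2) / pW n (y + 27 / 2)) (2 / n - pG n (y + 27 / 2) / pGd n (y + 27 / 2)) q := by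
  obtain ⟨x, hx, rfl⟩ : ∃ x, 0 ≤ x ∧ n = x + 6 := ⟨n - 6, by linarith, by ring⟩
  have hn0 : (0 : ℝ) < x + 6 := by linarith
  have hr0 : (y + 27 / 2) ≠ 0 := by linarith
  have hW := (pW_pos hn (y + 27 / 2)).ne'
  have hG := (pGd_pos hn hr0).ne'
  have hK := (pK_pos hn).ne'
  have hE := (pE_pos hn).ne'
  rw [gd_sub hn hr0]
  refine sideVal_pos ?_ ?_ hq1 hq2
  · rw [inv_eq_one_div, sideVal_eq hn0.ne' hW hG hr0]
    have := sideTwo_left hx hy
    positivity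
  · have e : (y + 27 / 2)⁻¹ + 2 * (1 + (y + 27 / 2)⁻¹) / lowSum (x + 6) =
        (pK (x + 6) + 2 * (1 + (y + 27 / 2)) * pE (x + 6)) / (pK (x + 6) * (y + 27 / 2)) := by
      rw [lowSum_eq (by linarith)]; field_simp; ring
    rw [e, sideVal_eq hn0.ne' hW hG (mul_ne_zero hK hr0)]
    have := sideTwo_right hx hy
    positivity

theorem wForm_fam {n : ℕ} (hn : 6 ≤ n) (r x y z : ℝ) :
    wForm n (pA n r / pW n r) (pB n r / pW n r) (pC1 n r / pW n r) (pC2 n r / pW n r)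
        (pC3 n r / pW n r) (pC4 n r / pW n r) (pT n r / (n * pW n r ^ 2)) x y z *
        ((n : ℝ) * pW n r ^ 2) =
      eA n r * x ^ 2 + 2 * eR n r * (x * y) + eM n r * y ^ 2 + 2 * eV n r * (x * z) +
        2 * eS n r * (y * z) + eB n r * z ^ 2 := by
  simp only [eA, eB, eV, eM, eR, eS, pC1, pC2, pC3, pC4]
  exact wForm_scaled (by omega) (pW_pos (by exact_mod_cast hn) r).ne' x y z

/-- The certificate. -/
theorem exists_cert {n : ℕ} (hn : 6 ≤ n) {p q r : ℝ} (hr : 27 / 2 ≤ r) (hp1 : r ≤ p)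
    (hp2 : p ≤ r + 2 * (1 + r) / lowSum n) (hq1 : r⁻¹ ≤ q)
    (hq2 : q ≤ r⁻¹ + 2 * (1 + r⁻¹) / lowSum n) :
    ∃ (δ : ℝ) (c : Fin 14 → ℝ), 0 < δ ∧
      IsCert n p q (pA n r / pW n r) (pB n r / pW n r) δ c := by
  have hN : (6 : ℝ) ≤ n := by exact_mod_cast hn
  obtain ⟨x, hx, hxN⟩ : ∃ x : ℝ, 0 ≤ x ∧ (n : ℝ) = x + 6 := ⟨n - 6, by linarith, by ring⟩
  obtain ⟨y, hy, rfl⟩ : ∃ y : ℝ, 0 ≤ y ∧ r = y + 27 / 2 := ⟨r - 27 / 2, by linarith, by ring⟩
  have hn0 : (0 : ℝ) < n := by linarith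
  have f1 := side_one hN hy hp1 hp2
  have f2 := side_two hN hy hq1 hq2
  have hW : 0 < pW n (y + 27 / 2) := pW_pos hN _
  set K := (n : ℝ) * pW n (y + 27 / 2) ^ 2 with hK
  have hK0 : 0 < K := by positivity
  set a := eA n (y + 27 / 2) with ha
  set b := eB n (y + 27 / 2) with hb
  set v := eV n (y + 27 / 2) with hv
  set M := eM n (y + 27 / 2) with hM
  set R := eR n (y + 27 / 2) with hR
  set S := eS n (y + 27 / 2) with hS
  set g := pG n (y + 27 / 2) / pGd n (y + 27 / 2)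
  set A := pA n (y + 27 / 2) / pW n (y + 27 / 2) with hA
  set B := pB n (y + 27 / 2) / pW n (y + 27 / 2) with hB
  set c₁ := pC1 n (y + 27 / 2) / pW n (y + 27 / 2) with hc1
  set c₂ := pC2 n (y + 27 / 2) / pW n (y + 27 / 2)
  set c₃ := pC3 n (y + 27 / 2) / pW n (y + 27 / 2)
  set c₄ := pC4 n (y + 27 / 2) / pW n (y + 27 / 2) with hc4
  have ha0 : 0 < a := by have := eA_pos hx hy; rwa [← hxN] at this
  have hab0 : 0 < a * b - v ^ 2 := by have := minor_pos hx hy; rwa [← hxN] at this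
  have hd0 : 0 < a * M * b + 2 * R * S * v - a * S ^ 2 - b * R ^ 2 - v ^ 2 * M := by
    have := det_pos hx hy; rwa [← hxN] at this
  have ev : ∀ {f : ℝ → ℝ}, Continuous f → 0 < f 0 → ∀ᶠ ε in 𝓝[>] (0 : ℝ), 0 < f ε :=
    fun hf h0 => eventually_nhdsWithin_of_eventually_nhds
      ((hf.tendsto 0).eventually (eventually_gt_nhds h0))
  obtain ⟨ε, h1, h2, h3, h4, h5, h6, hε⟩ := ((ev (f := fun ε => a - ε * K) (by fun_prop)
    (by simpa using ha0)).and ((ev (f := fun ε => (a - ε * K) * (b - ε * K) - v ^ 2) (by fun_prop)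
    (by simpa using hab0)).and ((ev (f := fun ε => (a - ε * K) * M * (b - ε * K) + 2 * R * S * v -
      (a - ε * K) * S ^ 2 - (b - ε * K) * R ^ 2 - v ^ 2 * M) (by fun_prop)
    (by simpa using hd0)).and ((ev (f := fun ε => sideVal n A B c₁ c₂ c₃ (g - ε) p)
      (by unfold sideVal; fun_prop) (by simpa using f1)).and
    ((ev (f := fun ε => sideVal n B A c₄ c₃ c₂ (2 / n - g - ε) q) (by unfold sideVal; fun_prop)
      (by simpa using f2)).and
    ((eventually_nhdsWithin_of_eventually_nhds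
      (eventually_le_nhds (by positivity : (0 : ℝ) < 1 / n))).and
        (eventually_mem_nhdsWithin (s := Set.Ioi (0 : ℝ))))))))).exists
  have hε0 : 0 < ε := hε
  have bp : 0 < -((n : ℝ) + 2) * pC1 n (y + 27 / 2) - (pA n (y + 27 / 2) - 2 * pW n (y + 27 / 2)) := by
    have := pOne_pos hx hy; rwa [← hxN] at this
  have bq : 0 < -((n : ℝ) + 2) * pC4 n (y + 27 / 2) - (pB n (y + 27 / 2) - 2 * pW n (y + 27 / 2)) := by
    have := pTwo_pos hx hy; rwa [← hxN] at this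
  have hP : 0 < -(1 + 2 / (n : ℝ)) * c₁ - (A - 2) / n := by
    have e : -(1 + 2 / (n : ℝ)) * c₁ - (A - 2) / n =
        (-(n + 2) * pC1 n (y + 27 / 2) - (pA n (y + 27 / 2) - 2 * pW n (y + 27 / 2))) / (n * pW n (y + 27 / 2)) := by
      have hne := hW.ne'; rw [hA, hc1]; generalize y + 27 / 2 = r at hne ⊢; field_simp
    rw [e]
    exact div_pos bp (by positivity)
  have hQ : 0 < -(1 + 2 / (n : ℝ)) * c₄ - (B - 2) / n := by
    have e : -(1 + 2 / (n : ℝ)) * c₄ - (B - 2) / n =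
        (-(n + 2) * pC4 n (y + 27 / 2) - (pB n (y + 27 / 2) - 2 * pW n (y + 27 / 2))) / (n * pW n (y + 27 / 2)) := by
      have hne := hW.ne'; rw [hB, hc4]; generalize y + 27 / 2 = r at hne ⊢; field_simp
    rw [e]
    exact div_pos bq (by positivity)
  have hτ : 0 ≤ pT n (y + 27 / 2) / ((n : ℝ) * pW n (y + 27 / 2) ^ 2) := by
    refine div_nonneg ?_ hK0.le
    unfold pT
    have : 0 ≤ pT0 n (y + 27 / 2) := by
      have := (pT0_pos hx hy).le; rwa [← hxN] at this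
    positivity
  have hWf : ∀ u w z : ℝ, ε * (u ^ 2 + z ^ 2) ≤
      wForm n A B c₁ c₂ c₃ c₄ (pT n (y + 27 / 2) / ((n : ℝ) * pW n (y + 27 / 2) ^ 2)) u w z := fun u w z => by
    refine le_of_mul_le_mul_right ?_ hK0
    rw [wForm_fam hn]
    linarith [form_nonneg h1 h2 h3 u w z]
  obtain ⟨δ, hδ, hc⟩ := isCert_of_blocks (n := n) (p := p) (q := q) (A := A) (B := B)
    (c₁ := c₁) (c₂ := c₂) (c₃ := c₃) (c₄ := c₄) (g := g - ε) (h := 2 / n - g - ε)
    (by omega) hε0 hτ hWf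
    hP (by have := h4; rw [sideVal] at this; linarith) hQ
    (by have := h5; rw [sideVal] at this; linarith)
    (fun s t hs ht => by
      have := mul_nonneg (sub_nonneg.2 h6) (sq_nonneg (s - t))
      linear_combination this)
  exact ⟨δ, _, hδ, hc⟩

/-- On this range the weights satisfy the condition of the shell estimate above the `Large`
bound. -/
theorem weights_le {n : ℕ} (hn : 6 ≤ n) {r : ℝ} (hr : 27 / 2 ≤ r) :
    r * (1 - pA n r / pW n r) + (1 - pB n r / pW n r) ≤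
      r * (4 * ((n : ℝ) - 2) + 7) / (((n : ℝ) - 2) * (2 * ((n : ℝ) - 2) + 4)) := by
  have hN : (6 : ℝ) ≤ n := by exact_mod_cast hn
  have hW := pW_pos hN r
  have h2 : (0 : ℝ) < ((n : ℝ) - 2) * (2 * ((n : ℝ) - 2) + 4) := by nlinarith
  have hc : 0 < pCond n r := by
    have := pCond_pos (x := (n : ℝ) - 6) (y := r - 27 / 2) (by linarith) (by linarith)
    simpa using this
  rw [one_sub_div hW.ne', one_sub_div hW.ne', mul_div_assoc', ← add_div,
    div_le_div_iff₀ hW h2]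
  simp only [pCond] at hc
  simp only [pW] at hc ⊢
  linarith

end Vale.Agent.P100.Far
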